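import Mathlib.Analysis.Complex.Schwarz
import Mathlib.Analysis.Complex.RemovableSingularity
import Mathlib.Analysis.Calculus.FDeriv.Mul
import Mathlib.GroupTheory.Nilpotent
import Mathlib.GroupTheory.Index

open Metric Set Filter Topology Finset

namespace Vale.Agent.P274

theorem schwarz_pick_ineq {M : ℝ} {a w : ℂ} (ha : ‖a‖ < M) (hw : ‖w‖ ≤ M) :
    M * ‖w - a‖ ≤ ‖(M : ℂ) ^ 2 - (starRingEnd ℂ) a * w‖ := by
  have hM : 0 ≤ M := le_trans (norm_nonneg a) ha.le
  have key : ‖(M : ℂ) ^ 2 - (starRingEnd ℂ) a * w‖ ^ 2 - (M * ‖w - a‖) ^ 2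
      = (M ^ 2 - ‖a‖ ^ 2) * (M ^ 2 - ‖w‖ ^ 2) := by
    simp only [mul_pow, Complex.sq_norm, Complex.normSq_apply]
    simp [pow_two, Complex.mul_re, Complex.mul_im]
    ring
  have h1 : 0 ≤ (M ^ 2 - ‖a‖ ^ 2) * (M ^ 2 - ‖w‖ ^ 2) := by
    apply mul_nonneg <;> nlinarith [norm_nonneg a, norm_nonneg w]
  exact (sq_le_sq₀ (by positivity) (norm_nonneg _)).1 (by linarith)

/-- A holomorphic map of the disc of radius 2 into the disc of radius `M` that is almost
extremal at the centre is almost constant on the closed unit disc. -/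
theorem near_max_propagates {u : ℂ → ℂ} {M : ℝ} (hu : DifferentiableOn ℂ u (ball 0 2))
    (hb : ∀ t ∈ ball (0 : ℂ) 2, ‖u t‖ ≤ M) :
    ‖u 1 - u 0‖ ≤ 2 * (M - ‖u 0‖) := by
  have h0 : (0 : ℂ) ∈ ball (0 : ℂ) 2 := mem_ball_self (by norm_num)
  apply le_of_forall_pos_le_add
  intro η hη
  set M' : ℝ := M + η / 2 with hM'
  have ha : ‖u 0‖ < M' := lt_of_le_of_lt (hb 0 h0) (by linarith)
  have hM'pos : 0 < M' := lt_of_le_of_lt (norm_nonneg _) ha
  have hw : ∀ t ∈ ball (0 : ℂ) 2, ‖u t‖ ≤ M' := fun t ht => (hb t ht).trans (by linarith)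
  set D : ℂ → ℂ := fun t => (M' : ℂ) ^ 2 - (starRingEnd ℂ) (u 0) * u t with hD
  have hDne : ∀ t ∈ ball (0 : ℂ) 2, D t ≠ 0 := by
    intro t ht h
    have h2 : ((M' : ℂ) ^ 2) = (starRingEnd ℂ) (u 0) * u t := sub_eq_zero.1 h
    have h3 := congrArg norm h2
    simp only [norm_pow, Complex.norm_real, Real.norm_eq_abs, abs_of_pos hM'pos, norm_mul,
      RCLike.norm_conj] at h3
    nlinarith [hw t ht, norm_nonneg (u t), norm_nonneg (u 0)]
  set φ : ℂ → ℂ := fun t => (M' : ℂ) * (u t - u 0) / D t with hφ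
  have hφd : DifferentiableOn ℂ φ (ball 0 2) :=
    ((hu.sub_const _).const_mul _).div ((differentiableOn_const _).sub (hu.const_mul _)) hDne
  have hφ0 : φ 0 = 0 := by simp [hφ]
  have hmaps : MapsTo φ (ball 0 2) (closedBall (φ 0) 1) := by
    intro t ht
    rw [hφ0, mem_closedBall_zero_iff, hφ]
    simp only
    rw [norm_div, div_le_one (norm_pos_iff.2 (hDne t ht)), norm_mul, Complex.norm_real,
      Real.norm_eq_abs, abs_of_pos hM'pos]
    exact schwarz_pick_ineq ha (hw t ht)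
  have h1 : (1 : ℂ) ∈ ball (0 : ℂ) 2 := by simp
  have hs := Complex.dist_le_div_mul_dist_of_mapsTo_ball hφd hmaps h1
  rw [hφ0, dist_zero_right, dist_zero_right, norm_one, mul_one, hφ] at hs
  simp only at hs
  rw [norm_div, div_le_iff₀ (norm_pos_iff.2 (hDne 1 h1)), norm_mul, Complex.norm_real,
      Real.norm_eq_abs, abs_of_pos hM'pos] at hs
  have hsplit : D 1 = (((M' ^ 2 - ‖u 0‖ ^ 2 : ℝ)) : ℂ) - (starRingEnd ℂ) (u 0) * (u 1 - u 0) := by
    have : (starRingEnd ℂ) (u 0) * u 0 = ((‖u 0‖ ^ 2 : ℝ) : ℂ) := by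
      rw [Complex.sq_norm, Complex.normSq_eq_conj_mul_self]
    simp only [hD, Complex.ofReal_sub, Complex.ofReal_pow] at this ⊢
    linear_combination -this
  have hge : 0 ≤ M' ^ 2 - ‖u 0‖ ^ 2 := by nlinarith [norm_nonneg (u 0)]
  have hDle : ‖D 1‖ ≤ (M' ^ 2 - ‖u 0‖ ^ 2) + ‖u 0‖ * ‖u 1 - u 0‖ := by
    rw [hsplit]
    refine (norm_sub_le _ _).trans ?_
    rw [Complex.norm_real, Real.norm_eq_abs, abs_of_nonneg hge, norm_mul, RCLike.norm_conj]
  nlinarith [norm_nonneg (u 1 - u 0), norm_nonneg (u 0), hs, hDle]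

variable {N : ℕ}

/-- Along a sequence of bounded holomorphic functions, being almost extremal propagates over a
connected open set. -/
theorem near_max_everywhere {U : Set (Fin N → ℂ)} (hUo : IsOpen U) (hUc : IsPreconnected U)
    {M : ℝ} (hM : 0 ≤ M) (h : ℕ → (Fin N → ℂ) → ℂ) (hd : ∀ k, DifferentiableOn ℂ (h k) U)
    (hb : ∀ k, ∀ p ∈ U, ‖h k p‖ ≤ M) (x : ℕ → (Fin N → ℂ)) {x₀ : Fin N → ℂ} (hx₀ : x₀ ∈ U)
    (hx : Tendsto x atTop (𝓝 x₀)) (hxM : Tendsto (fun k => h k (x k)) atTop (𝓝 (M : ℂ))) :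
    ∀ p ∈ U, Tendsto (fun k => h k p) atTop (𝓝 (M : ℂ)) := by
  have est : ∀ k, ∀ p q : Fin N → ℂ, ∀ r, ball p r ⊆ U → 2 * dist q p < r →
      ‖h k q - h k p‖ ≤ 2 * (M - ‖h k p‖) := by
    intro k p q r hsub hq
    have hmem : ∀ t ∈ ball (0 : ℂ) 2, p + t • (q - p) ∈ U := by
      intro t ht
      apply hsub
      rw [mem_ball, dist_eq_norm, add_sub_cancel_left, norm_smul, ← dist_eq_norm]
      rw [mem_ball_zero_iff] at ht
      nlinarith [dist_nonneg (x := q) (y := p)]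
    have := near_max_propagates (u := fun t => h k (p + t • (q - p))) (M := M)
      ((hd k).comp (by fun_prop) hmem) (fun t ht => hb k _ (hmem t ht))
    simpa using this
  -- propagation of the limit to nearby points
  have prop : ∀ (y : ℕ → Fin N → ℂ) (q : Fin N → ℂ) (r : ℝ),
      (∀ᶠ k in atTop, ball (y k) r ⊆ U ∧ 2 * dist q (y k) < r) →
      Tendsto (fun k => h k (y k)) atTop (𝓝 (M : ℂ)) →
      Tendsto (fun k => h k q) atTop (𝓝 (M : ℂ)) := by
    intro y q r hev hy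
    have h2 : Tendsto (fun k => 2 * (M - ‖h k (y k)‖)) atTop (𝓝 0) := by
      have := ((tendsto_const_nhds (x := M)).sub hy.norm).const_mul 2
      simpa [abs_of_nonneg hM] using this
    have h3 : Tendsto (fun k => h k q - h k (y k)) atTop (𝓝 0) :=
      squeeze_zero_norm' (hev.mono fun k hk => est k _ _ r hk.1 hk.2) h2
    simpa using h3.add hy
  set A : Set (Fin N → ℂ) := {p | Tendsto (fun k => h k p) atTop (𝓝 (M : ℂ))} with hA
  have hnear : ∀ p ∈ U, ∀ r > 0, ball p (2 * r) ⊆ U → ∀ q ∈ ball p (r / 4),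
      ∀ q' ∈ ball p (r / 4), q ∈ A → q' ∈ A := by
    intro p _ r hr hsub q hq q' hq' hqA
    refine prop (fun _ => q) q' r (Eventually.of_forall fun _ => ⟨?_, ?_⟩) hqA
    · intro z hz
      apply hsub
      rw [mem_ball] at *
      linarith [dist_triangle z q p]
    · rw [mem_ball] at *
      linarith [dist_triangle q' p q, dist_comm p q]
  have hx₀A : x₀ ∈ A := by
    obtain ⟨r, hr, hsub⟩ := Metric.isOpen_iff.1 hUo x₀ hx₀
    refine prop x x₀ (r / 2) ?_ hxM
    filter_upwards [hx (ball_mem_nhds x₀ (show 0 < r / 8 by linarith))] with k hk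
    rw [Set.mem_preimage, mem_ball] at hk
    refine ⟨fun z hz => hsub ?_, ?_⟩
    · rw [mem_ball] at *
      linarith [dist_triangle z (x k) x₀]
    · linarith [dist_comm x₀ (x k)]
  intro p hp
  refine ((hUc.induction₂ (fun a b => a ∈ A ↔ b ∈ A) ?_ (fun a b c _ _ _ h1 h2 => h1.trans h2)
    (fun a b _ _ h1 => h1.symm) hx₀ hp).1 hx₀A)
  intro a ha
  obtain ⟨r, hr, hsub⟩ := Metric.isOpen_iff.1 hUo a ha
  have hb8 : ball a (r / 8) ∈ 𝓝[U] a := nhdsWithin_le_nhds (ball_mem_nhds a (by linarith))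
  filter_upwards [hb8] with q hq
  have hsub' : ball a (2 * (r / 2)) ⊆ U := by rwa [mul_div_cancel₀ r (by norm_num : (2:ℝ) ≠ 0)]
  have h4 : r / 2 / 4 = r / 8 := by ring
  exact ⟨fun h1 => hnear a ha (r / 2) (by linarith) hsub' a (mem_ball_self (by linarith)) q
      (by rwa [h4]) h1,
    fun h1 => hnear a ha (r / 2) (by linarith) hsub' q (by rwa [h4]) a
      (mem_ball_self (by linarith)) h1⟩

variable {Γ : Type*} {U : Set (Fin N → ℂ)} {act : Γ → (Fin N → ℂ) → (Fin N → ℂ)}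

/-- An element commuting, as a transformation, with a cocompact family of translations acts as
the identity. -/
theorem act_eq_self_of_commute (hUo : IsOpen U) (hUc : IsPreconnected U)
    (hUb : Bornology.IsBounded U)
    (hmap : ∀ γ, MapsTo (act γ) U U) (hd : ∀ γ, DifferentiableOn ℂ (act γ) U)
    (S : Set Γ) {K : Set (Fin N → ℂ)} (hK : IsCompact K) (hKU : K ⊆ U)
    (hcov : ∀ p ∈ U, ∃ τ ∈ S, ∃ x ∈ K, act τ x = p) (γ : Γ)
    (hcomm : ∀ τ ∈ S, ∀ p ∈ U, act τ (act γ p) = act γ (act τ p)) :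
    ∀ p ∈ U, act γ p = p := by
  intro p₀ hp₀
  funext i
  by_contra hne
  obtain ⟨R, hR⟩ := hUb.exists_norm_le
  have hcoord : ∀ p ∈ U, ‖p i‖ ≤ R := fun p hp => (norm_le_pi_norm p i).trans (hR p hp)
  set g : (Fin N → ℂ) → ℂ := fun p => act γ p i - p i with hg
  have hgb : BddAbove ((fun p => ‖g p‖) '' U) := by
    refine ⟨2 * R, ?_⟩
    rintro _ ⟨p, hp, rfl⟩
    exact (norm_sub_le _ _).trans (by linarith [hcoord p hp, hcoord _ (hmap γ hp)])
  set M : ℝ := sSup ((fun p => ‖g p‖) '' U) with hMdef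
  have hle : ∀ p ∈ U, ‖g p‖ ≤ M := fun p hp => le_csSup hgb ⟨p, hp, rfl⟩
  have hMpos : 0 < M := lt_of_lt_of_le (norm_pos_iff.2 (sub_ne_zero.2 hne)) (hle p₀ hp₀)
  have hne' : ((fun p => ‖g p‖) '' U).Nonempty := ⟨_, p₀, hp₀, rfl⟩
  have hsel : ∀ k : ℕ, ∃ τ ∈ S, ∃ x ∈ K,
      (1 - 1 / ((k : ℝ) + 2)) * M < ‖g (act τ x)‖ := by
    intro k
    have hlt : (1 - 1 / ((k : ℝ) + 2)) * M < M := by
      have : (0 : ℝ) < 1 / ((k : ℝ) + 2) := by positivity
      nlinarith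
    obtain ⟨_, ⟨p, hp, rfl⟩, hlt'⟩ := exists_lt_of_lt_csSup hne' hlt
    obtain ⟨τ, hτ, x, hx, rfl⟩ := hcov p hp
    exact ⟨τ, hτ, x, hx, hlt'⟩
  choose τ hτ x hx hbig using hsel
  obtain ⟨x₀, hx₀, φ, hφ, hlim⟩ := hK.tendsto_subseq hx
  set c : ℕ → ℂ := fun k => ((‖g (act (τ k) (x k))‖ : ℝ) : ℂ) / g (act (τ k) (x k)) with hc
  have hgpos : ∀ k, 0 < ‖g (act (τ k) (x k))‖ := by
    intro k
    refine lt_of_le_of_lt ?_ (hbig k)
    have : 1 / ((k : ℝ) + 2) ≤ 1 := by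
      rw [div_le_one (by positivity)]
      linarith [(k.cast_nonneg : (0 : ℝ) ≤ k)]
    nlinarith
  have hcn : ∀ k, ‖c k‖ = 1 := fun k => by simp [hc, (hgpos k).ne']
  set h : ℕ → (Fin N → ℂ) → ℂ := fun k p => c (φ k) * g (act (τ (φ k)) p) with hh
  have hgd : DifferentiableOn ℂ g U :=
    ((differentiableOn_pi.1 (hd γ)) i).sub (differentiable_apply i).differentiableOn
  have hhd : ∀ k, DifferentiableOn ℂ (h k) U := fun k =>
    (hgd.comp (hd _) (hmap _)).const_mul _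
  have hhb : ∀ k, ∀ p ∈ U, ‖h k p‖ ≤ M := fun k p hp => by
    simpa [hh, hcn] using hle _ (hmap _ hp)
  have hhx : Tendsto (fun k => h k (x (φ k))) atTop (𝓝 (M : ℂ)) := by
    have h1 : Tendsto (fun k => ‖g (act (τ k) (x k))‖) atTop (𝓝 M) := by
      refine tendsto_of_tendsto_of_tendsto_of_le_of_le ?_ tendsto_const_nhds
        (fun k => (hbig k).le) (fun k => hle _ (hmap _ (hKU (hx k))))
      have h2 : Tendsto (fun k : ℕ => 1 / ((k : ℝ) + 2)) atTop (𝓝 0) :=
        tendsto_const_nhds.div_atTop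
          (tendsto_atTop_add_const_right _ _ tendsto_natCast_atTop_atTop)
      simpa using ((tendsto_const_nhds (x := (1 : ℝ))).sub h2).mul_const M
    refine ((Complex.continuous_ofReal.tendsto M).comp (h1.comp hφ.tendsto_atTop)).congr ?_
    intro k
    have : g (act (τ (φ k)) (x (φ k))) ≠ 0 := norm_pos_iff.1 (hgpos _)
    simp [hh, hc, div_mul_cancel₀ _ this]
  have hall := near_max_everywhere hUo hUc hMpos.le h hhd hhb (fun k => x (φ k)) (hKU hx₀)
    hlim hhx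
  set orb : ℕ → (Fin N → ℂ) := fun j => (act γ)^[j] p₀ with horb
  have horbU : ∀ j, orb j ∈ U := fun j => (hmap γ).iterate j hp₀
  have key : ∀ m : ℕ, (m : ℝ) * M ≤ 2 * R := by
    intro m
    have hsum : Tendsto (fun k => ∑ j ∈ range m, h k (orb j)) atTop
        (𝓝 ((m : ℂ) * (M : ℂ))) := by
      have := tendsto_finsetSum (range m) (fun j _ => hall (orb j) (horbU j))
      simpa using this
    have htel : ∀ k, ∑ j ∈ range m, h k (orb j)
        = c (φ k) * (act (τ (φ k)) (orb m) i - act (τ (φ k)) (orb 0) i) := by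
      intro k
      rw [← Finset.sum_range_sub (fun j => act (τ (φ k)) (orb j) i) m, Finset.mul_sum]
      refine Finset.sum_congr rfl fun j _ => ?_
      simp only [hh, hg]
      rw [← hcomm _ (hτ _) _ (horbU j)]
      simp [horb, Function.iterate_succ_apply']
    have hbd : ∀ k, ‖∑ j ∈ range m, h k (orb j)‖ ≤ 2 * R := fun k => by
      rw [htel, norm_mul, hcn, one_mul]
      exact (norm_sub_le _ _).trans
        (by linarith [hcoord _ (hmap (τ (φ k)) (horbU m)), hcoord _ (hmap (τ (φ k)) (horbU 0))])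
    have := le_of_tendsto' hsum.norm hbd
    simpa [abs_of_pos hMpos] using this
  obtain ⟨m, hm⟩ := exists_nat_gt (2 * R / M)
  rw [div_lt_iff₀ hMpos] at hm
  linarith [key m]

end Vale.Agent.P274
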