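import Vale.Agent.P274.Montel

/-!
# P274: the Jacobian determinant of a limit vanishes nowhere or everywhere
-/

open Metric Set Filter Topology

namespace Vale.Agent.P274

variable {N : ℕ}

theorem line_fderiv_differentiable {f : (Fin N → ℂ) → (Fin N → ℂ)} {a : Fin N → ℂ} {r R : ℝ}
    (hr : 0 < r) (hR : 0 ≤ R) (hd : DifferentiableOn ℂ f (ball a (2 * r)))
    (hb : ∀ z ∈ ball a (2 * r), ‖f z‖ ≤ R) (z v w : Fin N → ℂ) :
    DifferentiableOn ℂ (fun t : ℂ => fderiv ℂ f (z + t • v) w)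
      {t | z + t • v ∈ ball a (r / 4)} := by
  by_cases hw : w = 0
  · simp [hw, differentiableOn_const]
  have hw0 : 0 < ‖w‖ := norm_pos_iff.2 hw
  set S := {t : ℂ | z + t • v ∈ ball a (r / 4)}
  have hSo : IsOpen S := isOpen_ball.preimage (f := fun t : ℂ => z + t • v) (by fun_prop)
  set σ : ℕ → ℝ := fun n => r / (8 * ‖w‖) / ((n : ℝ) + 1)
  have hσ : ∀ n, 0 < σ n ∧ σ n * ‖w‖ < r / 4 := fun n => by
    refine ⟨by positivity, ?_⟩
    have h1 : σ n ≤ r / (8 * ‖w‖) := div_le_self (by positivity) (by linarith [(n.cast_nonneg : (0 : ℝ) ≤ n)])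
    calc σ n * ‖w‖ ≤ r / (8 * ‖w‖) * ‖w‖ := by gcongr
      _ = r / 8 := by field_simp
      _ < r / 4 := by linarith
  set c : ℕ → ℂ := fun n => (σ n : ℂ)
  have hcn : ∀ n, ‖c n‖ = σ n := fun n => by simp [c, abs_of_pos (hσ n).1]
  have hmove : ∀ n, ∀ y ∈ ball a (r / 4), y + c n • w ∈ ball a (r / 2) := by
    intro n y hy
    rw [mem_ball, dist_eq_norm] at hy ⊢
    calc ‖y + c n • w - a‖ ≤ ‖y - a‖ + ‖c n • w‖ := by rw [add_sub_right_comm]; exact norm_add_le _ _
      _ < r / 2 := by rw [norm_smul, hcn]; linarith [(hσ n).2]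
  have h2 : ball a (r / 2) ⊆ ball a (2 * r) := ball_subset_ball (by linarith)
  have h4 : ball a (r / 4) ⊆ ball a (r / 2) := ball_subset_ball (by linarith)
  set q : ℕ → ℂ → (Fin N → ℂ) := fun n t =>
    (c n)⁻¹ • (f (z + t • v + c n • w) - f (z + t • v))
  have hq : ∀ n, DifferentiableOn ℂ (q n) S := fun n => by
    have d1 : DifferentiableOn ℂ (fun t : ℂ => f (z + t • v + c n • w)) S :=
      hd.comp (f := fun t : ℂ => z + t • v + c n • w) (by fun_prop)
        fun t ht => h2 (hmove n _ ht)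
    have d2 : DifferentiableOn ℂ (fun t : ℂ => f (z + t • v)) S :=
      hd.comp (f := fun t : ℂ => z + t • v) (by fun_prop) fun t ht => h2 (h4 ht)
    exact (d1.sub d2).const_smul ((c n)⁻¹)
  set L : ℝ := R / r * (2 / r)
  have herr : ∀ n, ∀ t ∈ S, ‖q n t - fderiv ℂ f (z + t • v) w‖ ≤ L * ‖w‖ ^ 2 * σ n := by
    intro n t ht
    set y := z + t • v
    have hseg : segment ℝ y (y + c n • w) ⊆ ball a (r / 2) :=
      (convex_ball a _).segment_subset (h4 ht) (hmove n y ht)
    have hmv := (convex_segment y (y + c n • w)).norm_image_sub_le_of_norm_fderiv_le' (𝕜 := ℂ)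
      (f := f) (φ := fderiv ℂ f y) (C := L * ‖c n • w‖)
      (fun x hx => hd.differentiableAt (isOpen_ball.mem_nhds (h2 (hseg hx))))
      (fun x hx => by
        refine (fderiv_lipschitz hr hR hd hb (hseg hx) (h4 ht)).trans ?_
        refine mul_le_mul_of_nonneg_left ?_ (by positivity)
        have := norm_sub_le_of_mem_segment hx
        simpa [add_sub_cancel_left] using this)
      (left_mem_segment ℝ _ _) (right_mem_segment ℝ _ _)
    rw [add_sub_cancel_left] at hmv
    have hc0 : c n ≠ 0 := norm_pos_iff.1 (by rw [hcn]; exact (hσ n).1)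
    have e : q n t - fderiv ℂ f y w
        = (c n)⁻¹ • (f (y + c n • w) - f y - fderiv ℂ f y (c n • w)) := by
      rw [map_smul, smul_sub _ (_ - _) (c n • _), inv_smul_smul₀ hc0]
    rw [e, norm_smul, norm_inv, hcn, inv_mul_le_iff₀ (hσ n).1]
    refine hmv.trans (le_of_eq ?_)
    rw [norm_smul, hcn]
    ring
  have hσ0 : Tendsto σ atTop (𝓝 0) :=
    tendsto_const_nhds.div_atTop (tendsto_atTop_add_const_right _ _ tendsto_natCast_atTop_atTop)
  have hu : TendstoUniformlyOn q (fun t => fderiv ℂ f (z + t • v) w) atTop S := by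
    rw [Metric.tendstoUniformlyOn_iff]
    intro ε hε
    have := (hσ0.const_mul (L * ‖w‖ ^ 2)).eventually (eventually_lt_nhds (by simpa using hε))
    filter_upwards [this] with n hn t ht
    rw [dist_comm, dist_eq_norm]
    exact lt_of_le_of_lt (herr n t ht) hn
  exact hu.tendstoLocallyUniformlyOn.differentiableOn (Eventually.of_forall hq) hSo

theorem line_det_differentiable {f : (Fin N → ℂ) → (Fin N → ℂ)} {a : Fin N → ℂ} {r R : ℝ}
    (hr : 0 < r) (hR : 0 ≤ R) (hd : DifferentiableOn ℂ f (ball a (2 * r)))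
    (hb : ∀ z ∈ ball a (2 * r), ‖f z‖ ≤ R) (z v : Fin N → ℂ) :
    DifferentiableOn ℂ (fun t : ℂ => (fderiv ℂ f (z + t • v)).det)
      {t | z + t • v ∈ ball a (r / 4)} := by
  classical
  have e : ∀ D : (Fin N → ℂ) →L[ℂ] (Fin N → ℂ), D.det = ∑ σ : Equiv.Perm (Fin N),
      Equiv.Perm.sign σ • ∏ i : Fin N, D (Pi.single i 1) (σ i) := by
    intro D
    rw [ContinuousLinearMap.det, ← LinearMap.det_toMatrix', Matrix.det_apply]
    simp [LinearMap.toMatrix'_apply]
  simp only [e]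
  refine DifferentiableOn.fun_sum fun σ _ => ?_
  simp only [Units.smul_def, zsmul_eq_mul]
  refine (differentiableOn_const _).mul (DifferentiableOn.fun_finsetProd fun i _ => ?_)
  exact differentiableOn_pi.1 (line_fderiv_differentiable hr hR hd hb z v (Pi.single i 1)) (σ i)

theorem hurwitz {u : ℕ → ℂ → ℂ} {g : ℂ → ℂ} {S : Set ℂ} (hS : IsOpen S) (hSc : IsPreconnected S)
    (h0 : (0 : ℂ) ∈ S) (hu : ∀ᶠ k in atTop, DifferentiableOn ℂ (u k) S ∧ ∀ t ∈ S, u k t ≠ 0)
    (hlim : TendstoUniformlyOn u g atTop S) (hg : ∃ t ∈ S, g t ≠ 0) : g 0 ≠ 0 := by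
  have hgd : DifferentiableOn ℂ g S :=
    hlim.tendstoLocallyUniformlyOn.differentiableOn (hu.mono fun k hk => hk.1) hS
  have han : AnalyticOnNhd ℂ g S := hgd.analyticOnNhd hS
  intro hg0
  rcases (han 0 h0).eventually_eq_zero_or_eventually_ne_zero with h | h
  · obtain ⟨t, ht, hne⟩ := hg
    exact hne (han.eqOn_zero_of_preconnected_of_eventuallyEq_zero hSc h0 h ht)
  · rw [eventually_nhdsWithin_iff, Metric.eventually_nhds_iff] at h
    obtain ⟨ε, hε, hne⟩ := h
    obtain ⟨δ, hδ, hδS⟩ := Metric.isOpen_iff.1 hS 0 h0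
    set ρ := min ε δ / 2
    have hρ : 0 < ρ := half_pos (lt_min hε hδ)
    have hρε : ρ < ε := lt_of_lt_of_le (half_lt_self (lt_min hε hδ)) (min_le_left _ _)
    have hρδ : ρ < δ := lt_of_lt_of_le (half_lt_self (lt_min hε hδ)) (min_le_right _ _)
    have hsubS : closedBall (0 : ℂ) ρ ⊆ S := (closedBall_subset_ball hρδ).trans hδS
    have hne' : ∀ t ∈ sphere (0 : ℂ) ρ, g t ≠ 0 := fun t ht =>
      hne (by rw [mem_sphere.1 ht]; exact hρε) (by
        simp only [mem_compl_iff, mem_singleton_iff]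
        rintro rfl
        simp [mem_sphere] at ht
        exact hρ.ne ht)
    obtain ⟨t₀, ht₀, hmin⟩ := (isCompact_sphere (0 : ℂ) ρ).exists_isMinOn
      (NormedSpace.sphere_nonempty.2 hρ.le)
      ((hgd.continuousOn.mono (sphere_subset_closedBall.trans hsubS)).norm)
    set m := ‖g t₀‖
    have hm : 0 < m := norm_pos_iff.2 (hne' t₀ ht₀)
    obtain ⟨k, ⟨hkd, hkne⟩, hk⟩ :=
      (hu.and (Metric.tendstoUniformlyOn_iff.1 hlim (m / 4) (by linarith))).exists
    have hdiff : DifferentiableOn ℂ (fun t => (u k t)⁻¹) (closedBall 0 ρ) :=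
      (hkd.mono hsubS).inv fun t ht => hkne t (hsubS ht)
    have hfr : ∀ t ∈ frontier (ball (0 : ℂ) ρ), ‖(u k t)⁻¹‖ ≤ 2 / m := by
      intro t ht
      rw [frontier_ball _ hρ.ne'] at ht
      have h1 : m ≤ ‖g t‖ := hmin ht
      have h2 := hk t (hsubS (sphere_subset_closedBall ht))
      rw [dist_eq_norm] at h2
      have h3 : m / 2 ≤ ‖u k t‖ := by linarith [norm_sub_norm_le (g t) (u k t)]
      rw [norm_inv, show 2 / m = (m / 2)⁻¹ by rw [inv_div]]
      exact inv_anti₀ (by linarith) h3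
    have h4 := Complex.norm_le_of_forall_mem_frontier_norm_le isBounded_ball
      (hdiff.mono closure_ball_subset_closedBall).diffContOnCl hfr
      (subset_closure (mem_ball_self hρ))
    have h5 := hk 0 h0
    rw [hg0, dist_eq_norm, zero_sub, norm_neg] at h5
    have hu0 : 0 < ‖u k 0‖ := norm_pos_iff.2 (hkne 0 h0)
    rw [norm_inv, inv_le_iff_one_le_mul₀ hu0] at h4
    have h6 : 2 / m * ‖u k 0‖ < 2 / m * (m / 4) := mul_lt_mul_of_pos_left h5 (by positivity)
    have h7 : 2 / m * (m / 4) = 1 / 2 := by field_simp; ring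
    linarith

/-- On a connected open set, the Jacobian of a limit of locally biholomorphic maps is nonzero
everywhere as soon as it is nonzero somewhere. -/
theorem det_ne_zero {U : Set (Fin N → ℂ)} (hU : IsOpen U) (hUc : IsPreconnected U)
    (f : ℕ → (Fin N → ℂ) → (Fin N → ℂ)) (g : (Fin N → ℂ) → (Fin N → ℂ)) {R : ℝ} (hR : 0 ≤ R)
    (hev : ∀ a r, closedBall a r ⊆ U → ∀ᶠ k in atTop, DifferentiableOn ℂ (f k) (ball a r) ∧
      ∀ z ∈ ball a r, ‖f k z‖ ≤ R)
    (hconv : ∀ a ∈ U, ∃ ρ > 0, closedBall a ρ ⊆ U ∧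
      TendstoUniformlyOn (fun k => fderiv ℂ (f k)) (fderiv ℂ g) atTop (ball a ρ))
    (hne : ∀ a r, closedBall a r ⊆ U → ∀ᶠ k in atTop, ∀ z ∈ ball a r, (fderiv ℂ (f k) z).det ≠ 0)
    {x₀ : Fin N → ℂ} (hx₀ : x₀ ∈ U) (h0 : (fderiv ℂ g x₀).det ≠ 0) :
    ∀ z ∈ U, (fderiv ℂ g z).det ≠ 0 := by
  classical
  have hloc : ∀ a ∈ U, ∃ δ > 0, ball a δ ⊆ U ∧ ∀ z ∈ ball a δ, ∀ w ∈ ball a δ,
      (fderiv ℂ g w).det ≠ 0 → (fderiv ℂ g z).det ≠ 0 := by
    intro a ha
    obtain ⟨ρ, hρ, hρU, hu⟩ := hconv a ha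
    set r := ρ / 2
    have hr : 0 < r := half_pos hρ
    have e2 : 2 * r = ρ := by simp [r]; ring
    refine ⟨r / 4, by linarith, (ball_subset_ball (by linarith)).trans (ball_subset_closedBall.trans hρU),
      fun z hz w hw hdw => ?_⟩
    set S := {t : ℂ | z + t • (w - z) ∈ ball a (r / 4)}
    have hSo : IsOpen S := isOpen_ball.preimage (f := fun t : ℂ => z + t • (w - z)) (by fun_prop)
    have hSc : Convex ℝ S := by
      intro s hs t ht α β hα hβ hαβ
      have h := convex_ball a (r / 4) hs ht hα hβ hαβ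
      show z + (α • s + β • t) • (w - z) ∈ ball a (r / 4)
      convert h using 1
      rw [add_smul, smul_assoc, smul_assoc, smul_add, smul_add, ← add_add_add_comm, ← add_smul,
        hαβ, one_smul]
    have hball : ball a (r / 4) ⊆ ball a ρ := ball_subset_ball (by linarith)
    have hev' := (hev a (2 * r) (by rw [e2]; exact hρU)).and (hne a (2 * r) (by rw [e2]; exact hρU))
    have hdetc : Continuous fun D : (Fin N → ℂ) →L[ℂ] (Fin N → ℂ) => D.det :=
      ContinuousLinearMap.continuous_det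
    have hlim : TendstoUniformlyOn (fun k t => (fderiv ℂ (f k) (z + t • (w - z))).det)
        (fun t => (fderiv ℂ g (z + t • (w - z))).det) atTop S := by
      have hb : ∀ᶠ k in atTop, ∀ y ∈ ball a (r / 4),
          fderiv ℂ (f k) y ∈ closedBall (0 : (Fin N → ℂ) →L[ℂ] (Fin N → ℂ)) (R / r) := by
        filter_upwards [hev a (2 * r) (by rw [e2]; exact hρU)] with k hk y hy
        rw [mem_closedBall_zero_iff]
        exact fderiv_bound hr hR hk.1 hk.2 (ball_subset_ball (by linarith) hy)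
      have hgb : ∀ y ∈ ball a (r / 4),
          fderiv ℂ g y ∈ closedBall (0 : (Fin N → ℂ) →L[ℂ] (Fin N → ℂ)) (R / r) := fun y hy =>
        isClosed_closedBall.mem_of_tendsto (hu.tendsto_at (hball hy)) (hb.mono fun k hk => hk y hy)
      haveI : ProperSpace ((Fin N → ℂ) →L[ℂ] (Fin N → ℂ)) := FiniteDimensional.proper ℂ _
      have hunif := (isCompact_closedBall (0 : (Fin N → ℂ) →L[ℂ] (Fin N → ℂ)) (R / r)).uniformContinuousOn_of_continuous
        hdetc.continuousOn
      rw [Metric.uniformContinuousOn_iff] at hunif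
      rw [Metric.tendstoUniformlyOn_iff]
      intro ε hε
      obtain ⟨η, hη, hηε⟩ := hunif ε hε
      filter_upwards [hb, Metric.tendstoUniformlyOn_iff.1 hu η hη] with k hk hkη t ht
      exact hηε _ (hgb _ ht) _ (hk _ ht) (hkη _ (hball ht))
    have hw1 : z + (1 : ℂ) • (w - z) = w := by simp
    have h := hurwitz hSo hSc.isPreconnected (show (0 : ℂ) ∈ S by simpa [S] using hz)
      (hev'.mono fun k hk => ⟨line_det_differentiable hr hR hk.1.1 hk.1.2 z (w - z),
        fun t ht => hk.2 _ (ball_subset_ball (by linarith) ht)⟩)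
      hlim ⟨1, by simpa [S] using hw, by rw [hw1]; exact hdw⟩
    simpa using h
  intro z hz
  refine ((hUc.induction₂ (fun a b => (fderiv ℂ g a).det ≠ 0 ↔ (fderiv ℂ g b).det ≠ 0) ?_
    (fun a b c _ _ _ h1 h2 => h1.trans h2) (fun a b _ _ h1 => h1.symm) hx₀ hz).1 h0)
  intro a ha
  obtain ⟨δ, hδ, -, hiff⟩ := hloc a ha
  filter_upwards [nhdsWithin_le_nhds (ball_mem_nhds a hδ)] with q hq
  exact ⟨hiff q hq a (mem_ball_self hδ), hiff a (mem_ball_self hδ) q hq⟩

end Vale.Agent.P274
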