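import Vale.Agent.P274.Transfer

/-!
# P274: a cocompact domain coinciding near a peak point with a homogeneous domain
-/

open Metric Set Filter Topology

namespace Vale.Agent.P274

variable {N : ℕ}

/-- Biholomorphisms of `B` act transitively on it. -/
def Homogeneous (B : Set (Fin N → ℂ)) : Prop :=
  ∀ a ∈ B, ∀ b ∈ B, ∃ ψ ψ' : (Fin N → ℂ) → (Fin N → ℂ), MapsTo ψ B B ∧ MapsTo ψ' B B ∧
    DifferentiableOn ℂ ψ B ∧ DifferentiableOn ℂ ψ' B ∧ InvOn ψ' ψ B B ∧ ψ a = b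

/-- Two open subsets of `ℂ^N` are biholomorphic. -/
def Biholomorphic (U B : Set (Fin N → ℂ)) : Prop :=
  ∃ F G : (Fin N → ℂ) → (Fin N → ℂ), MapsTo F U B ∧ MapsTo G B U ∧
    DifferentiableOn ℂ F U ∧ DifferentiableOn ℂ G B ∧ InvOn G F U B

theorem det_ne_zero_of_left_inv {f g : (Fin N → ℂ) → (Fin N → ℂ)} {z : Fin N → ℂ}
    (hf : DifferentiableAt ℂ f z) (hg : DifferentiableAt ℂ g (f z))
    (h : ∀ᶠ y in 𝓝 z, g (f y) = y) : (fderiv ℂ f z).det ≠ 0 := by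
  have h1 : fderiv ℂ (g ∘ f) z = ContinuousLinearMap.id ℂ _ :=
    (Filter.EventuallyEq.fderiv_eq (f := fun y => y) h).trans fderiv_id'
  rw [fderiv_comp z hg hf] at h1
  intro h0
  have h2 := congrArg (fun D : (Fin N → ℂ) →L[ℂ] (Fin N → ℂ) => D.toLinearMap) h1
  simp only [ContinuousLinearMap.coe_comp, ContinuousLinearMap.coe_id] at h2
  have h3 := congrArg LinearMap.det h2
  change LinearMap.det ((fderiv ℂ g (f z)).toLinearMap ∘ₗ (fderiv ℂ f z).toLinearMap) = _ at h3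
  rw [LinearMap.det_comp, LinearMap.det_id] at h3
  rw [ContinuousLinearMap.det] at h0
  rw [h0, mul_zero] at h3
  exact zero_ne_one h3

/-- The transfer theorem. -/
theorem biholomorphic_of_peak (U : Set (Fin N → ℂ)) (hUo : IsOpen U) (hUc : IsConnected U)
    (hUb : Bornology.IsBounded U) (Γ : Type) [Group Γ] (act : Γ → (Fin N → ℂ) → (Fin N → ℂ))
    (hone : ∀ x ∈ U, act 1 x = x)
    (hmul : ∀ a b : Γ, ∀ x ∈ U, act (a * b) x = act a (act b x))
    (hmap : ∀ γ, MapsTo (act γ) U U) (hd : ∀ γ, DifferentiableOn ℂ (act γ) U)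
    (hcc : ∃ K : Set (Fin N → ℂ), IsCompact K ∧ K ⊆ U ∧ ∀ x ∈ U, ∃ γ, act γ x ∈ K)
    (B : Set (Fin N → ℂ)) (hBo : IsOpen B) (hBc : IsConnected B) (hBb : Bornology.IsBounded B)
    (hB : Homogeneous B) (p : Fin N → ℂ) (hp : p ∈ closure U)
    (W : Set (Fin N → ℂ)) (hW : IsOpen W) (hpW : p ∈ W) (hUB : U ∩ W = B ∩ W)
    (h : (Fin N → ℂ) → ℂ) (hh : DifferentiableOn ℂ h W) (hhp : h p = 1)
    (hpeak : ∀ z ∈ W, z ∈ closure U → z ≠ p → ‖h z‖ < 1) : Biholomorphic U B := by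
  classical
  obtain ⟨K, hK, hKU, hcov⟩ := hcc
  obtain ⟨R, hR0, hRU, hRB⟩ : ∃ R, 0 ≤ R ∧ (∀ z ∈ U, ‖z‖ ≤ R) ∧ ∀ z ∈ B, ‖z‖ ≤ R := by
    obtain ⟨R, hR⟩ := (hUb.union hBb).exists_norm_le
    exact ⟨max R 0, le_max_right _ _, fun z hz => (hR z (Or.inl hz)).trans (le_max_left _ _),
      fun z hz => (hR z (Or.inr hz)).trans (le_max_left _ _)⟩
  obtain ⟨b₀, hb₀⟩ := hBc.nonempty
  -- boundary sequence, its translates, and the automorphisms of the model
  obtain ⟨q, hq, hqlim⟩ := mem_closure_iff_seq_limit.1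
    (show p ∈ closure (U ∩ W) from inter_comm W U ▸ hW.inter_closure ⟨hpW, hp⟩)
  have hqU : ∀ n, q n ∈ U := fun n => (hq n).1
  have hqB : ∀ n, q n ∈ B := fun n => (show q n ∈ B ∩ W from hUB ▸ hq n).1
  choose τ hτ using fun n => hcov (q n) (hqU n)
  choose ψ ψ' hψm hψ'm hψd hψ'd hψinv hψb using fun n => hB b₀ hb₀ (q n) (hqB n)
  obtain ⟨x₀, hx₀, φ₁, hφ₁, hx⟩ := hK.tendsto_subseq hτ
  have hcancel : ∀ (γ : Γ), ∀ z ∈ U, act γ (act γ⁻¹ z) = z ∧ act γ⁻¹ (act γ z) = z := fun γ z hz =>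
    ⟨by rw [← hmul _ _ z hz, mul_inv_cancel, hone z hz],
      by rw [← hmul _ _ z hz, inv_mul_cancel, hone z hz]⟩
  have hpeakU : ∀ z ∈ W, z ∈ closure U → z ≠ p → ‖h z‖ < 1 := hpeak
  have hpeakB : ∀ z ∈ W, z ∈ closure B → z ≠ p → ‖h z‖ < 1 := fun z hzW hzB hne => by
    refine hpeak z hzW ?_ hne
    have : z ∈ closure (B ∩ W) := inter_comm W B ▸ hW.inter_closure ⟨hzW, hzB⟩
    rw [← hUB] at this
    exact closure_mono inter_subset_left this
  -- both families converge to `p`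
  obtain ⟨φ₂, hφ₂, hγ⟩ := squeeze hUo hUc.isPreconnected hUb (fun k => act (τ (φ₁ k))⁻¹)
    (fun k => hd _) (fun k => hmap _) hW hpW hh hhp hpeakU (hKU hx₀) hx
    ((hqlim.comp hφ₁.tendsto_atTop).congr fun k => ((hcancel _ _ (hqU _)).2).symm)
  obtain ⟨φ₃, hφ₃, hψ⟩ := squeeze hBo hBc.isPreconnected hBb (fun k => ψ (φ₁ (φ₂ k)))
    (fun k => hψd _) (fun k => hψm _) hW hpW hh hhp hpeakB (x := fun _ => b₀) hb₀
    tendsto_const_nhds ((hqlim.comp (hφ₁.comp hφ₂).tendsto_atTop).congr fun k => (hψb _).symm)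
  set n : ℕ → ℕ := fun k => φ₁ (φ₂ (φ₃ k)) with hn
  have hxn : Tendsto (fun k => act (τ (n k)) (q (n k))) atTop (𝓝 x₀) :=
    hx.comp ((hφ₂.comp hφ₃).tendsto_atTop)
  set γ : ℕ → (Fin N → ℂ) → (Fin N → ℂ) := fun k => act (τ (n k))⁻¹
  set δ : ℕ → (Fin N → ℂ) → (Fin N → ℂ) := fun k => act (τ (n k))
  have hγW : ∀ L, IsCompact L → L ⊆ U → ∀ᶠ k in atTop, ∀ z ∈ L, γ k z ∈ B := by
    intro L hL hLU
    have h1 := eventually_in hγ hL hLU (hW.mem_nhds hpW)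
    filter_upwards [hφ₃.tendsto_atTop.eventually h1] with k hk z hz
    exact (show γ k z ∈ B ∩ W from hUB ▸ ⟨hmap _ (hLU hz), hk z hz⟩).1
  have hψW : ∀ L, IsCompact L → L ⊆ B → ∀ᶠ k in atTop, ∀ z ∈ L, ψ (n k) z ∈ U := by
    intro L hL hLB
    have h1 := eventually_in hψ hL hLB (hW.mem_nhds hpW)
    filter_upwards [h1] with k hk z hz
    exact (show ψ (n k) z ∈ U ∩ W from hUB.symm ▸ ⟨hψm _ (hLB hz), hk z hz⟩).1
  set F : ℕ → (Fin N → ℂ) → (Fin N → ℂ) := fun k z => ψ' (n k) (γ k z)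
  set G : ℕ → (Fin N → ℂ) → (Fin N → ℂ) := fun k z => δ k (ψ (n k) z)
  have hFd : ∀ k z, z ∈ U → γ k z ∈ B → DifferentiableAt ℂ (F k) z := fun k z hz hzB =>
    ((hψ'd (n k)).differentiableAt (hBo.mem_nhds hzB)).comp z
      ((hd _).differentiableAt (hUo.mem_nhds hz))
  have hGd : ∀ k z, z ∈ B → ψ (n k) z ∈ U → DifferentiableAt ℂ (G k) z := fun k z hz hzU =>
    ((hd (τ (n k))).differentiableAt (hUo.mem_nhds hzU)).comp z
      ((hψd (n k)).differentiableAt (hBo.mem_nhds hz))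
  have hGF : ∀ k z, z ∈ U → γ k z ∈ B → G k (F k z) = z := fun k z hz hzB => by
    simp only [G, F, δ, γ]
    rw [(hψinv (n k)).2 hzB, (hcancel _ z hz).1]
  have hFG : ∀ k z, z ∈ B → ψ (n k) z ∈ U → F k (G k z) = z := fun k z hz hzU => by
    simp only [G, F, δ, γ]
    rw [(hcancel _ _ hzU).2, (hψinv (n k)).1 hz]
  have hevF : ∀ a r, closedBall a r ⊆ U → ∀ᶠ k in atTop, DifferentiableOn ℂ (F k) (ball a r) ∧
      MapsTo (F k) (ball a r) B ∧ ∀ z ∈ ball a r, ‖F k z‖ ≤ R := by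
    intro a r hsub
    filter_upwards [hγW _ (isCompact_closedBall a r) hsub] with k hk
    have hmem : ∀ z ∈ ball a r, z ∈ U ∧ γ k z ∈ B := fun z hz =>
      ⟨hsub (ball_subset_closedBall hz), hk z (ball_subset_closedBall hz)⟩
    exact ⟨fun z hz => (hFd k z (hmem z hz).1 (hmem z hz).2).differentiableWithinAt,
      fun z hz => hψ'm _ (hmem z hz).2, fun z hz => hRB _ (hψ'm _ (hmem z hz).2)⟩
  have hevG : ∀ a r, closedBall a r ⊆ B → ∀ᶠ k in atTop, DifferentiableOn ℂ (G k) (ball a r) ∧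
      MapsTo (G k) (ball a r) U ∧ ∀ z ∈ ball a r, ‖G k z‖ ≤ R := by
    intro a r hsub
    filter_upwards [hψW _ (isCompact_closedBall a r) hsub] with k hk
    have hmem : ∀ z ∈ ball a r, z ∈ B ∧ ψ (n k) z ∈ U := fun z hz =>
      ⟨hsub (ball_subset_closedBall hz), hk z (ball_subset_closedBall hz)⟩
    exact ⟨fun z hz => (hGd k z (hmem z hz).1 (hmem z hz).2).differentiableWithinAt,
      fun z hz => hmap _ (hmem z hz).2, fun z hz => hRU _ (hmap _ (hmem z hz).2)⟩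
  obtain ⟨σ₁, hσ₁, F₀, hF₀d, hFconv⟩ := montel hUo F hR0 fun a r hs =>
    (hevF a r hs).mono fun k hk => ⟨hk.1, hk.2.2⟩
  obtain ⟨σ₂, hσ₂, G₀, hG₀d, hGconv⟩ := montel hBo (fun k => G (σ₁ k)) hR0 fun a r hs =>
    (hσ₁.tendsto_atTop.eventually (hevG a r hs)).mono fun k hk => ⟨hk.1, hk.2.2⟩
  set m : ℕ → ℕ := fun k => σ₁ (σ₂ k)
  have hm : Tendsto m atTop atTop := hσ₁.tendsto_atTop.comp hσ₂.tendsto_atTop
  have hFc : ∀ a ∈ U, ∃ ρ > 0, closedBall a ρ ⊆ U ∧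
      TendstoUniformlyOn (fun k => F (m k)) F₀ atTop (ball a ρ) ∧
      TendstoUniformlyOn (fun k => fderiv ℂ (F (m k))) (fderiv ℂ F₀) atTop (ball a ρ) := by
    intro a ha
    obtain ⟨ρ, hρ, hsub, h1, h2⟩ := hFconv a ha
    exact ⟨ρ, hρ, hsub, fun u hu => hσ₂.tendsto_atTop.eventually (h1 u hu),
      fun u hu => hσ₂.tendsto_atTop.eventually (h2 u hu)⟩
  -- moving evaluation points
  have move : ∀ {f : ℕ → (Fin N → ℂ) → (Fin N → ℂ)} {g : (Fin N → ℂ) → (Fin N → ℂ)} {a : Fin N → ℂ}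
      {ρ : ℝ} {x : ℕ → Fin N → ℂ}, 0 < ρ → TendstoUniformlyOn f g atTop (ball a ρ) →
      ContinuousAt g a → Tendsto x atTop (𝓝 a) → Tendsto (fun k => f k (x k)) atTop (𝓝 (g a)) := by
    intro f g a ρ x hρ hu hg hx
    have h1 : Tendsto (fun k => g (x k)) atTop (𝓝 (g a)) := hg.tendsto.comp hx
    have h2 : Tendsto (fun k => dist (g (x k)) (f k (x k))) atTop (𝓝 0) := by
      rw [Metric.tendsto_nhds]
      intro ε hε
      filter_upwards [Metric.tendstoUniformlyOn_iff.1 hu ε hε,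
        hx.eventually (ball_mem_nhds a hρ)] with k hk hkb
      rw [dist_zero_right, Real.norm_eq_abs, abs_of_nonneg dist_nonneg]
      exact hk _ hkb
    exact (tendsto_iff_of_dist h2).1 h1
  have hx₀U := hKU hx₀
  have hF0 : F₀ x₀ = b₀ := by
    obtain ⟨ρ, hρ, -, h1, -⟩ := hFc x₀ hx₀U
    refine tendsto_nhds_unique (move hρ h1 (hF₀d.continuousOn.continuousAt (hUo.mem_nhds hx₀U))
      (hxn.comp hm)) (tendsto_const_nhds.congr fun k => ?_)
    simp only [F, γ, Function.comp_apply]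
    rw [(hcancel _ _ (hqU _)).2, ← hψb (n (m k)), (hψinv _).1 hb₀]
  have hG0 : G₀ b₀ = x₀ := by
    obtain ⟨ρ, hρ, -, h1, -⟩ := hGconv b₀ hb₀
    refine tendsto_nhds_unique (h1.tendsto_at (mem_ball_self hρ)) ((hxn.comp hm).congr fun k => ?_)
    simp only [G, δ, Function.comp_apply]
    rw [hψb]
  have hcomp : ∀ z ∈ U, F₀ z ∈ B → G₀ (F₀ z) = z := by
    intro z hz hzB
    obtain ⟨ρ, hρ, -, h1, -⟩ := hGconv _ hzB
    obtain ⟨ρ', hρ', -, h2, -⟩ := hFc z hz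
    refine tendsto_nhds_unique (move hρ h1 (hG₀d.continuousOn.continuousAt (hBo.mem_nhds hzB))
      (h2.tendsto_at (mem_ball_self hρ'))) (tendsto_const_nhds.congr' ?_)
    filter_upwards [hm.eventually (hγW {z} isCompact_singleton (by simpa using hz))] with k hk
    exact (hGF (m k) z hz (hk z rfl)).symm
  have hcomp' : ∀ z ∈ B, G₀ z ∈ U → F₀ (G₀ z) = z := by
    intro z hz hzU
    obtain ⟨ρ, hρ, -, h1, -⟩ := hFc _ hzU
    obtain ⟨ρ', hρ', -, h2, -⟩ := hGconv z hz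
    refine tendsto_nhds_unique (move hρ h1 (hF₀d.continuousOn.continuousAt (hUo.mem_nhds hzU))
      (h2.tendsto_at (mem_ball_self hρ'))) (tendsto_const_nhds.congr' ?_)
    filter_upwards [hm.eventually (hψW {z} isCompact_singleton (by simpa using hz))] with k hk
    exact (hFG (m k) z hz (hk z rfl)).symm
  have hFat : ContinuousAt F₀ x₀ := hF₀d.continuousOn.continuousAt (hUo.mem_nhds hx₀U)
  have hGat : ContinuousAt G₀ b₀ := hG₀d.continuousOn.continuousAt (hBo.mem_nhds hb₀)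
  have hdF : (fderiv ℂ F₀ x₀).det ≠ 0 := by
    refine det_ne_zero_of_left_inv (hF₀d.differentiableAt (hUo.mem_nhds hx₀U))
      (by rw [hF0]; exact hG₀d.differentiableAt (hBo.mem_nhds hb₀)) ?_
    filter_upwards [hUo.mem_nhds hx₀U, hFat.eventually (by rw [hF0]; exact hBo.mem_nhds hb₀)]
      with y hy hyB using hcomp y hy hyB
  have hdG : (fderiv ℂ G₀ b₀).det ≠ 0 := by
    refine det_ne_zero_of_left_inv (hG₀d.differentiableAt (hBo.mem_nhds hb₀))
      (by rw [hG0]; exact hF₀d.differentiableAt (hUo.mem_nhds hx₀U)) ?_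
    filter_upwards [hBo.mem_nhds hb₀, hGat.eventually (by rw [hG0]; exact hUo.mem_nhds hx₀U)]
      with y hy hyU using hcomp' y hy hyU
  have hFne : ∀ a r, closedBall a r ⊆ U →
      ∀ᶠ k in atTop, ∀ z ∈ ball a r, (fderiv ℂ (F (m k)) z).det ≠ 0 := by
    intro a r hsub
    filter_upwards [hm.eventually (hγW _ (isCompact_closedBall a r) hsub)] with k hk z hz
    have hzU := hsub (ball_subset_closedBall hz)
    have hzB := hk z (ball_subset_closedBall hz)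
    refine det_ne_zero_of_left_inv (hFd (m k) z hzU hzB) (hGd (m k) _ (hψ'm _ hzB) ?_) ?_
    · rw [show ψ (n (m k)) (F (m k) z) = γ (m k) z from (hψinv _).2 hzB]
      exact hmap _ hzU
    · filter_upwards [isOpen_ball.mem_nhds hz] with y hy
      exact hGF _ y (hsub (ball_subset_closedBall hy)) (hk y (ball_subset_closedBall hy))
  have hGne : ∀ a r, closedBall a r ⊆ B →
      ∀ᶠ k in atTop, ∀ z ∈ ball a r, (fderiv ℂ (G (m k)) z).det ≠ 0 := by
    intro a r hsub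
    filter_upwards [hm.eventually (hψW _ (isCompact_closedBall a r) hsub)] with k hk z hz
    have hzB := hsub (ball_subset_closedBall hz)
    have hzU := hk z (ball_subset_closedBall hz)
    refine det_ne_zero_of_left_inv (hGd (m k) z hzB hzU) (hFd (m k) _ (hmap _ hzU) ?_) ?_
    · rw [show γ (m k) (G (m k) z) = ψ (n (m k)) z from (hcancel _ _ hzU).2]
      exact hψm _ hzB
    · filter_upwards [isOpen_ball.mem_nhds hz] with y hy
      exact hFG _ y (hsub (ball_subset_closedBall hy)) (hk y (ball_subset_closedBall hy))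
  have hFdet := det_ne_zero hUo hUc.isPreconnected (fun k => F (m k)) F₀ hR0
    (fun a r hs => (hm.eventually (hevF a r hs)).mono fun k hk => ⟨hk.1, hk.2.2⟩)
    (fun a ha => (hFc a ha).imp fun ρ h => ⟨h.1, h.2.1, h.2.2.2⟩) hFne hx₀U hdF
  have hGdet := det_ne_zero hBo hBc.isPreconnected (fun k => G (m k)) G₀ hR0
    (fun a r hs => (hm.eventually (hevG a r hs)).mono fun k hk => ⟨hk.1, hk.2.2⟩)
    (fun a ha => (hGconv a ha).imp fun ρ h => ⟨h.1, h.2.1, h.2.2.2⟩) hGne hb₀ hdG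
  have hFB : MapsTo F₀ U B := fun z hz => by
    obtain ⟨ρ, hρ, hsub, h1, h2⟩ := hFc z hz
    exact limit_mem (fun k => F (m k)) F₀ hρ hsub hR0 (fun a r hs => hm.eventually (hevF a r hs))
      h1 h2 (hFdet z hz)
  have hGU : MapsTo G₀ B U := fun z hz => by
    obtain ⟨ρ, hρ, hsub, h1, h2⟩ := hGconv z hz
    exact limit_mem (fun k => G (m k)) G₀ hρ hsub hR0 (fun a r hs => hm.eventually (hevG a r hs))
      h1 h2 (hGdet z hz)
  exact ⟨F₀, G₀, hFB, hGU, hF₀d, hG₀d, fun z hz => hcomp z hz (hFB hz),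
    fun z hz => hcomp' z hz (hGU hz)⟩

end Vale.Agent.P274
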