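import Mathlib

/-!
# P274: normal families of holomorphic maps in several variables
-/

open Metric Set Filter Topology

namespace Vale.Agent.P274

variable {N : ℕ}

theorem fderiv_bound {f : (Fin N → ℂ) → (Fin N → ℂ)} {a : Fin N → ℂ} {r R : ℝ} (hr : 0 < r)
    (hR : 0 ≤ R) (hd : DifferentiableOn ℂ f (ball a (2 * r)))
    (hb : ∀ z ∈ ball a (2 * r), ‖f z‖ ≤ R) {x : Fin N → ℂ} (hx : x ∈ ball a r) :
    ‖fderiv ℂ f x‖ ≤ R / r := by
  refine ContinuousLinearMap.opNorm_le_bound _ (by positivity) fun v => ?_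
  by_cases hv : v = 0
  · simp [hv]
  have hv0 : 0 < ‖v‖ := norm_pos_iff.2 hv
  have hmem : ∀ t ∈ closedBall (0 : ℂ) (r / ‖v‖), x + t • v ∈ ball a (2 * r) := by
    intro t ht
    rw [mem_closedBall_zero_iff, le_div_iff₀ hv0] at ht
    rw [mem_ball, dist_eq_norm] at hx ⊢
    calc ‖x + t • v - a‖ ≤ ‖x - a‖ + ‖t • v‖ := by rw [add_sub_right_comm]; exact norm_add_le _ _
      _ < 2 * r := by rw [norm_smul]; linarith
  have hdiff : DifferentiableOn ℂ (fun t : ℂ => f (x + t • v)) (closedBall 0 (r / ‖v‖)) :=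
    hd.comp (by fun_prop) hmem
  have h := Complex.norm_deriv_le_of_forall_mem_sphere_norm_le (div_pos hr hv0)
    (f := fun t : ℂ => f (x + t • v)) (C := R)
    ((hdiff.mono closure_ball_subset_closedBall).diffContOnCl)
    fun t ht => hb _ (hmem t (sphere_subset_closedBall ht))
  have hx' : x ∈ ball a (2 * r) := by simpa using hmem 0 (mem_closedBall_self (by positivity))
  have hder : HasDerivAt (fun t : ℂ => f (x + t • v)) (fderiv ℂ f x v) 0 := by
    have h1 : HasDerivAt (fun t : ℂ => x + t • v) v 0 := by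
      simpa using ((hasDerivAt_id (0 : ℂ)).smul_const v).const_add x
    exact ((hd.differentiableAt (isOpen_ball.mem_nhds hx')).hasFDerivAt.comp_hasDerivAt_of_eq 0 h1
      (by simp))
  rw [hder.deriv] at h
  calc ‖fderiv ℂ f x v‖ ≤ R / (r / ‖v‖) := h
    _ = R / r * ‖v‖ := by rw [div_div_eq_mul_div]; ring

theorem lipschitz_bound {f : (Fin N → ℂ) → (Fin N → ℂ)} {a : Fin N → ℂ} {r R : ℝ} (hr : 0 < r)
    (hR : 0 ≤ R) (hd : DifferentiableOn ℂ f (ball a (2 * r)))
    (hb : ∀ z ∈ ball a (2 * r), ‖f z‖ ≤ R) {x y : Fin N → ℂ} (hx : x ∈ ball a r)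
    (hy : y ∈ ball a r) : ‖f x - f y‖ ≤ R / r * ‖x - y‖ :=
  (convex_ball a r).norm_image_sub_le_of_norm_fderiv_le (𝕜 := ℂ)
    (fun z hz => hd.differentiableAt (isOpen_ball.mem_nhds (ball_subset_ball (by linarith) hz)))
    (fun z hz => fderiv_bound hr hR hd hb hz) hy hx

theorem fderiv_lipschitz {f : (Fin N → ℂ) → (Fin N → ℂ)} {a : Fin N → ℂ} {r R : ℝ} (hr : 0 < r)
    (hR : 0 ≤ R) (hd : DifferentiableOn ℂ f (ball a (2 * r)))
    (hb : ∀ z ∈ ball a (2 * r), ‖f z‖ ≤ R) {x y : Fin N → ℂ} (hx : x ∈ ball a (r / 2))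
    (hy : y ∈ ball a (r / 2)) :
    ‖fderiv ℂ f x - fderiv ℂ f y‖ ≤ R / r * (2 / r) * ‖x - y‖ := by
  refine ContinuousLinearMap.opNorm_le_bound _ (by positivity) fun v => ?_
  by_cases hv : v = 0
  · simp [hv]
  have hv0 : 0 < ‖v‖ := norm_pos_iff.2 hv
  have hmem : ∀ z ∈ ball a (r / 2), ∀ t ∈ closedBall (0 : ℂ) (r / 2 / ‖v‖),
      z + t • v ∈ ball a r := by
    intro z hz t ht
    rw [mem_closedBall_zero_iff, le_div_iff₀ hv0] at ht
    rw [mem_ball, dist_eq_norm] at hz ⊢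
    calc ‖z + t • v - a‖ ≤ ‖z - a‖ + ‖t • v‖ := by rw [add_sub_right_comm]; exact norm_add_le _ _
      _ < r := by rw [norm_smul]; linarith
  have hmem' : ∀ z ∈ ball a (r / 2), ∀ t ∈ closedBall (0 : ℂ) (r / 2 / ‖v‖),
      z + t • v ∈ ball a (2 * r) := fun z hz t ht => ball_subset_ball (by linarith) (hmem z hz t ht)
  have hdiff : DifferentiableOn ℂ (fun t : ℂ => f (x + t • v) - f (y + t • v))
      (closedBall 0 (r / 2 / ‖v‖)) :=
    (hd.comp (by fun_prop) (hmem' x hx)).sub (hd.comp (by fun_prop) (hmem' y hy))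
  have h := Complex.norm_deriv_le_of_forall_mem_sphere_norm_le
    (show 0 < r / 2 / ‖v‖ by positivity)
    (f := fun t : ℂ => f (x + t • v) - f (y + t • v)) (C := R / r * ‖x - y‖)
    ((hdiff.mono closure_ball_subset_closedBall).diffContOnCl) fun t ht => by
      have := lipschitz_bound hr hR hd hb (hmem x hx t (sphere_subset_closedBall ht))
        (hmem y hy t (sphere_subset_closedBall ht))
      simpa using this
  have hder : ∀ z ∈ ball a (r / 2),
      HasDerivAt (fun t : ℂ => f (z + t • v)) (fderiv ℂ f z v) 0 := by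
    intro z hz
    have h1 : HasDerivAt (fun t : ℂ => z + t • v) v 0 := by
      simpa using ((hasDerivAt_id (0 : ℂ)).smul_const v).const_add z
    exact ((hd.differentiableAt (isOpen_ball.mem_nhds
      (ball_subset_ball (by linarith) hz))).hasFDerivAt.comp_hasDerivAt_of_eq 0 h1 (by simp))
  have hsub : HasDerivAt (fun t : ℂ => f (x + t • v) - f (y + t • v))
      (fderiv ℂ f x v - fderiv ℂ f y v) 0 := (hder x hx).sub (hder y hy)
  rw [hsub.deriv] at h
  show ‖fderiv ℂ f x v - fderiv ℂ f y v‖ ≤ _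
  refine h.trans (le_of_eq ?_)
  field_simp

theorem uniformCauchy_of_lipschitz {E : Type*} [NormedAddCommGroup E] (u : ℕ → (Fin N → ℂ) → E)
    (d : ℕ → Fin N → ℂ) (hd : DenseRange d) {a : Fin N → ℂ} {ρ L : ℝ} (hρ : 0 < ρ) (hL : 0 ≤ L)
    (hlip : ∀ᶠ k in atTop, ∀ x ∈ ball a (2 * ρ), ∀ y ∈ ball a (2 * ρ),
      ‖u k x - u k y‖ ≤ L * ‖x - y‖)
    (hconv : ∀ m, d m ∈ ball a (2 * ρ) → CauchySeq fun k => u k (d m)) :
    UniformCauchySeqOn u atTop (ball a ρ) := by
  rw [Metric.uniformCauchySeqOn_iff]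
  intro ε hε
  set δ : ℝ := min (ρ / 2) (ε / (4 * (L + 1)))
  have hδ : 0 < δ := lt_min (by linarith) (by positivity)
  have hδρ : δ ≤ ρ / 2 := min_le_left _ _
  have hδε : δ ≤ ε / (4 * (L + 1)) := min_le_right _ _
  have hcov : closedBall a ρ ⊆ ⋃ m ∈ {m | d m ∈ ball a (2 * ρ)}, ball (d m) δ := by
    intro z hz
    obtain ⟨m, hm⟩ := hd.exists_dist_lt z hδ
    refine mem_biUnion (x := m) ?_ (mem_ball.2 hm)
    rw [mem_closedBall] at hz
    show d m ∈ ball a (2 * ρ)
    rw [mem_ball]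
    linarith [dist_triangle (d m) z a, dist_comm (d m) z]
  obtain ⟨S, hSsub, hSfin, hS⟩ :=
    (isCompact_closedBall a ρ).elim_finite_subcover_image (fun m _ => isOpen_ball) hcov
  have hC : ∀ m ∈ S, ∃ M : ℕ, ∀ i ≥ M, ∀ j ≥ M, ‖u i (d m) - u j (d m)‖ < ε / 4 := by
    intro m hm
    obtain ⟨M, hM⟩ := Metric.cauchySeq_iff.1 (hconv m (hSsub hm)) (ε / 4) (by linarith)
    exact ⟨M, fun i hi j hj => by rw [← dist_eq_norm]; exact hM i hi j hj⟩
  choose! M hM using hC
  obtain ⟨M₀, hM₀⟩ := eventually_atTop.1 hlip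
  obtain ⟨M₁, hM₁⟩ := (hSfin.image M).bddAbove
  refine ⟨max M₀ M₁, fun i hi j hj z hz => ?_⟩
  obtain ⟨m, hm, hzm⟩ := mem_iUnion₂.1 (hS (ball_subset_closedBall hz))
  have hz2 : z ∈ ball a (2 * ρ) := ball_subset_ball (by linarith) hz
  have h1 := hM₀ i (le_trans (le_max_left _ _) hi) z hz2 (d m) (hSsub hm)
  have h2 := hM₀ j (le_trans (le_max_left _ _) hj) (d m) (hSsub hm) z hz2
  have h3 := hM m hm i (le_trans (le_trans (hM₁ ⟨m, hm, rfl⟩) (le_max_right _ _)) hi) j
    (le_trans (le_trans (hM₁ ⟨m, hm, rfl⟩) (le_max_right _ _)) hj)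
  rw [mem_ball, dist_eq_norm] at hzm
  have h4 : L * ‖z - d m‖ ≤ ε / 4 := by
    calc L * ‖z - d m‖ ≤ L * (ε / (4 * (L + 1))) :=
          mul_le_mul_of_nonneg_left (hzm.le.trans hδε) hL
      _ ≤ (L + 1) * (ε / (4 * (L + 1))) := by gcongr; linarith
      _ = ε / 4 := by field_simp
  rw [norm_sub_rev] at h2
  rw [dist_eq_norm, show u i z - u j z
    = (u i z - u i (d m)) + (u i (d m) - u j (d m)) + (u j (d m) - u j z) by abel]
  refine lt_of_le_of_lt (norm_add₃_le) ?_
  rw [norm_sub_rev (u j (d m))]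
  have h5 : ‖u j z - u j (d m)‖ ≤ L * ‖z - d m‖ := by
    have := hM₀ j (le_trans (le_max_left _ _) hj) z hz2 (d m) (hSsub hm)
    exact this
  linarith

/-- Montel: eventually bounded holomorphic maps have a subsequence converging locally uniformly
with its derivatives. -/
theorem montel {U : Set (Fin N → ℂ)} (hU : IsOpen U) (f : ℕ → (Fin N → ℂ) → (Fin N → ℂ)) {R : ℝ}
    (hR : 0 ≤ R)
    (hev : ∀ a r, closedBall a r ⊆ U → ∀ᶠ k in atTop, DifferentiableOn ℂ (f k) (ball a r) ∧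
      ∀ z ∈ ball a r, ‖f k z‖ ≤ R) :
    ∃ φ : ℕ → ℕ, StrictMono φ ∧ ∃ g : (Fin N → ℂ) → (Fin N → ℂ), DifferentiableOn ℂ g U ∧
      ∀ a ∈ U, ∃ ρ > 0, closedBall a ρ ⊆ U ∧
        TendstoUniformlyOn (fun k => f (φ k)) g atTop (ball a ρ) ∧
        TendstoUniformlyOn (fun k => fderiv ℂ (f (φ k))) (fderiv ℂ g) atTop (ball a ρ) := by
  classical
  set d : ℕ → Fin N → ℂ := TopologicalSpace.denseSeq (Fin N → ℂ)
  have hd : DenseRange d := TopologicalSpace.denseRange_denseSeq _
  have hloc : ∀ a ∈ U, ∃ r > 0, closedBall a (2 * r) ⊆ U := by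
    intro a ha
    obtain ⟨r, hr, hsub⟩ := Metric.isOpen_iff.1 hU a ha
    exact ⟨r / 4, by linarith, (closedBall_subset_ball (by linarith)).trans hsub⟩
  choose! rad hrad hradsub using hloc
  set C : ℕ → ℝ := fun m => if d m ∈ U then max R (R / rad (d m)) else 0
  have hC0 : ∀ m, 0 ≤ C m := fun m => by
    simp only [C]; split_ifs
    · exact le_max_of_le_left hR
    · rfl
  let T := (Fin N → ℂ) × ((Fin N → ℂ) →L[ℂ] (Fin N → ℂ))
  set v : ℕ → ℕ → T := fun k m =>
    if ‖((f k (d m), fderiv ℂ (f k) (d m)) : T)‖ ≤ C m then (f k (d m), fderiv ℂ (f k) (d m))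
    else 0 with hv
  haveI : ProperSpace T := FiniteDimensional.proper ℂ T
  have hcpt : IsCompact (Set.univ.pi fun m => closedBall (0 : T) (C m)) :=
    isCompact_univ_pi fun m => isCompact_closedBall _ _
  obtain ⟨w, -, φ, hφ, hlim⟩ := hcpt.tendsto_subseq (x := v) fun k m _ => by
    simp only [hv, mem_closedBall_zero_iff]
    split_ifs with h
    · exact h
    · simpa using hC0 m
  have hdm : ∀ m, d m ∈ U → Tendsto (fun k => f (φ k) (d m)) atTop (𝓝 (w m).1) ∧
      Tendsto (fun k => fderiv ℂ (f (φ k)) (d m)) atTop (𝓝 (w m).2) := by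
    intro m hm
    have hcl := tendsto_pi_nhds.1 hlim m
    have heq : ∀ᶠ k in atTop, v (φ k) m = (f (φ k) (d m), fderiv ℂ (f (φ k)) (d m)) := by
      filter_upwards [hφ.tendsto_atTop.eventually (hev (d m) _ (hradsub _ hm))] with k hk
      simp only [hv]
      rw [if_pos]
      simp only [C, if_pos hm]
      refine max_le ((hk.2 _ (mem_ball_self (by linarith [hrad _ hm]))).trans (le_max_left _ _))
        ((fderiv_bound (hrad _ hm) hR hk.1 hk.2 (mem_ball_self (hrad _ hm))).trans (le_max_right _ _))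
    exact Prod.tendsto_iff _ _ |>.1 (hcl.congr' heq)
  have hcauchy : ∀ a ∈ U, UniformCauchySeqOn (fun k => f (φ k)) atTop (ball a (rad a / 4)) ∧
      UniformCauchySeqOn (fun k => fderiv ℂ (f (φ k))) atTop (ball a (rad a / 4)) := by
    intro a ha
    have hr := hrad a ha
    have hr4 : (0 : ℝ) < rad a / 4 := by linarith
    have hsub : ∀ m, d m ∈ ball a (2 * (rad a / 4)) → d m ∈ U := fun m hm =>
      hradsub a ha (ball_subset_closedBall (ball_subset_ball (by linarith) hm))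
    have hev' := hφ.tendsto_atTop.eventually (hev a _ (hradsub a ha))
    refine ⟨uniformCauchy_of_lipschitz _ d hd hr4 (L := R / rad a) (by positivity) ?_
      fun m hm => (hdm m (hsub m hm)).1.cauchySeq,
      uniformCauchy_of_lipschitz _ d hd hr4 (L := R / rad a * (2 / rad a)) (by positivity) ?_
      fun m hm => (hdm m (hsub m hm)).2.cauchySeq⟩
    · filter_upwards [hev'] with k hk x hx y hy
      exact lipschitz_bound hr hR hk.1 hk.2 (ball_subset_ball (by linarith) hx)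
        (ball_subset_ball (by linarith) hy)
    · filter_upwards [hev'] with k hk x hx y hy
      exact fderiv_lipschitz hr hR hk.1 hk.2 (ball_subset_ball (by linarith) hx)
        (ball_subset_ball (by linarith) hy)
  have hlimg : ∀ z ∈ U, ∃ l, Tendsto (fun k => f (φ k) z) atTop (𝓝 l) := fun z hz =>
    cauchySeq_tendsto_of_complete
      ((hcauchy z hz).1.cauchySeq (mem_ball_self (by linarith [hrad z hz])))
  have hlimD : ∀ z ∈ U, ∃ l, Tendsto (fun k => fderiv ℂ (f (φ k)) z) atTop (𝓝 l) := fun z hz =>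
    cauchySeq_tendsto_of_complete
      ((hcauchy z hz).2.cauchySeq (mem_ball_self (by linarith [hrad z hz])))
  choose! g hg using hlimg
  choose! D hD using hlimD
  have hsubU : ∀ a ∈ U, ball a (rad a / 4) ⊆ U := fun a ha =>
    (ball_subset_ball (by linarith [hrad a ha])).trans (ball_subset_closedBall.trans (hradsub a ha))
  have hu1 : ∀ a ∈ U, TendstoUniformlyOn (fun k => f (φ k)) g atTop (ball a (rad a / 4)) :=
    fun a ha => (hcauchy a ha).1.tendstoUniformlyOn_of_tendsto fun z hz => hg z (hsubU a ha hz)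
  have hu2 : ∀ a ∈ U,
      TendstoUniformlyOn (fun k => fderiv ℂ (f (φ k))) D atTop (ball a (rad a / 4)) :=
    fun a ha => (hcauchy a ha).2.tendstoUniformlyOn_of_tendsto fun z hz => hD z (hsubU a ha hz)
  have hgD : ∀ z ∈ U, HasFDerivAt g (D z) z := by
    intro a ha
    obtain ⟨k₀, hk₀⟩ := eventually_atTop.1 (hφ.tendsto_atTop.eventually (hev a _ (hradsub a ha)))
    have hshift : Tendsto (fun k => k + k₀) atTop atTop := tendsto_add_atTop_nat k₀
    refine hasFDerivAt_of_tendstoUniformlyOn (l := atTop) isOpen_ball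
      (f := fun k => f (φ (k + k₀))) (f' := fun k => fderiv ℂ (f (φ (k + k₀))))
      (fun u hu => hshift.eventually (hu2 a ha u hu))
      (fun k x hx => ((hk₀ (k + k₀) (Nat.le_add_left _ _)).1.differentiableAt
        (isOpen_ball.mem_nhds (ball_subset_ball (by linarith [hrad a ha]) hx))).hasFDerivAt)
      (fun x hx => (hg x (hsubU a ha hx)).comp hshift) (mem_ball_self (by linarith [hrad a ha]))
  refine ⟨φ, hφ, g, fun z hz => (hgD z hz).differentiableAt.differentiableWithinAt, fun a ha =>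
    ⟨rad a / 4, by linarith [hrad a ha],
      (closedBall_subset_closedBall (by linarith [hrad a ha])).trans (hradsub a ha), hu1 a ha, ?_⟩⟩
  exact (hu2 a ha).congr_right fun z hz => (hgD z (hsubU a ha hz)).fderiv.symm

end Vale.Agent.P274
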