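import Vale.Agent.P274.Model

/-!
# P274: the polydisc as a homogeneous model with a peak at its corner
-/

open Metric Set Filter Topology
open scoped ComplexConjugate

namespace Vale.Agent.P274

variable {N : ℕ}

/-- The Moebius map of the disc sending `a` to zero. -/
noncomputable def moebius (a z : ℂ) : ℂ := (z - a) / (1 - conj a * z)

theorem moebius_den {a z : ℂ} (ha : ‖a‖ < 1) (hz : ‖z‖ < 1) : 1 - conj a * z ≠ 0 := by
  intro h
  have h1 : ‖conj a * z‖ < 1 := by
    rw [norm_mul, RCLike.norm_conj]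
    exact mul_lt_one_of_nonneg_of_lt_one_left (norm_nonneg _) ha hz.le
  rw [← sub_eq_zero.1 h, norm_one] at h1
  exact lt_irrefl _ h1

theorem norm_moebius_lt {a z : ℂ} (ha : ‖a‖ < 1) (hz : ‖z‖ < 1) : ‖moebius a z‖ < 1 := by
  rw [moebius, norm_div, div_lt_one (norm_pos_iff.2 (moebius_den ha hz)),
    ← sq_lt_sq₀ (norm_nonneg _) (norm_nonneg _)]
  have key : ‖1 - conj a * z‖ ^ 2 - ‖z - a‖ ^ 2 = (1 - ‖a‖ ^ 2) * (1 - ‖z‖ ^ 2) := by
    simp only [Complex.sq_norm, Complex.normSq_apply]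
    simp [Complex.mul_re, Complex.mul_im]
    ring
  have h : 0 < (1 - ‖a‖ ^ 2) * (1 - ‖z‖ ^ 2) :=
    mul_pos (by nlinarith [norm_nonneg a]) (by nlinarith [norm_nonneg z])
  linarith

theorem moebius_inv {a z : ℂ} (ha : ‖a‖ < 1) (hz : ‖z‖ < 1) : moebius (-a) (moebius a z) = z := by
  have hd := moebius_den ha hz
  have ha' : 1 - conj a * a ≠ 0 := moebius_den ha ha
  simp only [moebius, map_neg, sub_neg_eq_add, neg_mul]
  rw [div_add' _ _ _ hd, mul_div_assoc', one_add_div hd, div_div_div_cancel_right₀ hd,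
    show 1 - conj a * z + conj a * (z - a) = 1 - conj a * a by ring,
    show z - a + a * (1 - conj a * z) = z * (1 - conj a * a) by ring]
  exact mul_div_cancel_right₀ z ha'

theorem polydisc_homogeneous : Homogeneous (ball (0 : Fin N → ℂ) 1) := by
  intro a ha b hb
  have hc : ∀ {x : Fin N → ℂ}, x ∈ ball (0 : Fin N → ℂ) 1 → ∀ i, ‖x i‖ < 1 := fun {x} hx i =>
    lt_of_le_of_lt (norm_le_pi_norm x i) (mem_ball_zero_iff.1 hx)
  set T : (Fin N → ℂ) → (Fin N → ℂ) → (Fin N → ℂ) := fun c z i => moebius (c i) (z i)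
  have hmap : ∀ c : Fin N → ℂ, c ∈ ball (0 : Fin N → ℂ) 1 → MapsTo (T c) (ball 0 1) (ball 0 1) :=
    fun c hcB z hz => mem_ball_zero_iff.2 ((pi_norm_lt_iff one_pos).2
      fun i => norm_moebius_lt (hc hcB i) (hc hz i))
  have hdiff : ∀ c : Fin N → ℂ, c ∈ ball (0 : Fin N → ℂ) 1 →
      DifferentiableOn ℂ (T c) (ball 0 1) := fun c hcB =>
    differentiableOn_pi.2 fun i z hz => by
      have hi : DifferentiableAt ℂ (fun z : Fin N → ℂ => z i) z :=
        (differentiable_apply i).differentiableAt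
      refine DifferentiableAt.differentiableWithinAt ?_
      simp only [T, moebius, div_eq_mul_inv]
      exact (hi.sub_const _).mul ((DifferentiableAt.inv ((hi.const_mul _).const_sub 1)
        (moebius_den (hc hcB i) (hc hz i))))
  have hneg : ∀ {c : Fin N → ℂ}, c ∈ ball (0 : Fin N → ℂ) 1 → -c ∈ ball (0 : Fin N → ℂ) 1 :=
    fun {c} h => by simpa using h
  have hinv : ∀ c : Fin N → ℂ, c ∈ ball (0 : Fin N → ℂ) 1 → ∀ z ∈ ball (0 : Fin N → ℂ) 1,
      T (-c) (T c z) = z := fun c hcB z hz => funext fun i => moebius_inv (hc hcB i) (hc hz i)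
  refine ⟨fun z => T (-b) (T a z), fun z => T (-a) (T b z), (hmap _ (hneg hb)).comp (hmap _ ha),
    (hmap _ (hneg ha)).comp (hmap _ hb), (hdiff _ (hneg hb)).comp (hdiff _ ha) (hmap _ ha),
    (hdiff _ (hneg ha)).comp (hdiff _ hb) (hmap _ hb), ⟨fun z hz => ?_, fun z hz => ?_⟩, ?_⟩
  · have h := hinv (-b) (hneg hb) (T a z) (hmap _ ha hz)
    rw [neg_neg] at h
    show T (-a) (T b (T (-b) (T a z))) = z
    rw [h, hinv a ha z hz]
  · have h := hinv (-a) (hneg ha) (T b z) (hmap _ hb hz)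
    rw [neg_neg] at h
    show T (-b) (T a (T (-a) (T b z))) = z
    rw [h, hinv b hb z hz]
  · funext i
    simp [T, moebius]

/-- The peak function at the corner. -/
theorem corner_peak {z : Fin N → ℂ} (hz : z ∈ closure (ball (0 : Fin N → ℂ) 1))
    (hne : z ≠ fun _ => 1) : ‖∏ i, (1 + z i) / 2‖ < 1 := by
  rw [closure_ball _ one_ne_zero, mem_closedBall_zero_iff] at hz
  have hle : ∀ i, ‖(1 + z i) / 2‖ ≤ 1 := fun i => by
    rw [norm_div, RCLike.norm_ofNat, div_le_one two_pos]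
    have := norm_add_le (1 : ℂ) (z i)
    rw [norm_one] at this
    linarith [(norm_le_pi_norm z i).trans hz]
  obtain ⟨j, hj⟩ := Function.ne_iff.1 hne
  rw [norm_prod]
  have hlt : ‖(1 + z j) / 2‖ < 1 := by
    refine lt_of_le_of_ne (hle j) fun h => hj ?_
    have h2 : ‖1 + z j‖ ^ 2 = 4 := by
      rw [norm_div, RCLike.norm_ofNat, div_eq_one_iff_eq two_ne_zero] at h
      rw [h]; norm_num
    have h3 : ‖z j‖ ^ 2 ≤ 1 := by nlinarith [norm_nonneg (z j), (norm_le_pi_norm z j).trans hz]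
    simp only [Complex.sq_norm, Complex.normSq_apply, Complex.add_re, Complex.one_re,
      Complex.add_im, Complex.one_im, zero_add] at h2 h3
    refine Complex.ext ?_ ?_
    · simp; nlinarith [mul_self_nonneg ((z j).im)]
    · simp; nlinarith [mul_self_nonneg ((z j).im)]
  calc ∏ i, ‖(1 + z i) / 2‖ = ‖(1 + z j) / 2‖ * ∏ i ∈ Finset.univ.erase j, ‖(1 + z i) / 2‖ :=
        (Finset.mul_prod_erase Finset.univ (fun i => ‖(1 + z i) / 2‖) (Finset.mem_univ j)).symm
    _ ≤ ‖(1 + z j) / 2‖ * 1 := mul_le_mul_of_nonneg_left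
        (Finset.prod_le_one (fun i _ => norm_nonneg _) fun i _ => hle i) (norm_nonneg _)
    _ < 1 := by rw [mul_one]; exact hlt

theorem biholomorphic_polydisc (U : Set (Fin N → ℂ)) (hUo : IsOpen U) (hUc : IsConnected U)
    (hUb : Bornology.IsBounded U) (Γ : Type) [Group Γ] (act : Γ → (Fin N → ℂ) → (Fin N → ℂ))
    (hone : ∀ x ∈ U, act 1 x = x)
    (hmul : ∀ a b : Γ, ∀ x ∈ U, act (a * b) x = act a (act b x))
    (hmap : ∀ γ, MapsTo (act γ) U U) (hd : ∀ γ, DifferentiableOn ℂ (act γ) U)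
    (hcc : ∃ K : Set (Fin N → ℂ), IsCompact K ∧ K ⊆ U ∧ ∀ x ∈ U, ∃ γ, act γ x ∈ K)
    (W : Set (Fin N → ℂ)) (hW : IsOpen W) (hpW : (fun _ => 1) ∈ W)
    (hUB : U ∩ W = ball 0 1 ∩ W) : Biholomorphic U (ball (0 : Fin N → ℂ) 1) := by
  have hp : (fun _ => (1 : ℂ)) ∈ closure (ball (0 : Fin N → ℂ) 1) := by
    rw [closure_ball _ one_ne_zero, mem_closedBall_zero_iff, pi_norm_le_iff_of_nonneg zero_le_one]
    simp
  have hp' : (fun _ => (1 : ℂ)) ∈ closure U := by
    have h := hW.inter_closure ⟨hpW, hp⟩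
    rw [inter_comm, ← hUB] at h
    exact closure_mono inter_subset_left h
  refine biholomorphic_of_peak U hUo hUc hUb Γ act hone hmul hmap hd hcc _ isOpen_ball
    (isConnected_ball one_pos) isBounded_ball polydisc_homogeneous _ hp' W hW hpW hUB
    (fun z => ∏ i, (1 + z i) / 2) ?_ (by norm_num) fun z hzW hzU hne => corner_peak ?_ hne
  · have key : ∀ t : Finset (Fin N),
        DifferentiableOn ℂ (fun z : Fin N → ℂ => ∏ i ∈ t, (1 + z i) / 2) W := by
      intro t
      induction t using Finset.induction_on with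
      | empty => simp [differentiableOn_const]
      | insert i t hi ih =>
        simp only [Finset.prod_insert hi, div_eq_mul_inv] at ih ⊢
        exact (((differentiable_apply (𝕜 := ℂ) i).differentiableOn.const_add 1).mul_const _).mul ih
    exact key Finset.univ
  · have h := hW.inter_closure ⟨hzW, hzU⟩
    rw [inter_comm, hUB] at h
    exact closure_mono inter_subset_left h

end Vale.Agent.P274
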