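import Vale.Agent.P274.Hurwitz

/-!
# P274: squeezing at a peak boundary point, and transfer to a homogeneous model
-/

open Metric Set Filter Topology

namespace Vale.Agent.P274

variable {N : ℕ}

theorem squeeze {U D : Set (Fin N → ℂ)} (hU : IsOpen U) (hUc : IsPreconnected U)
    (hD : Bornology.IsBounded D) (f : ℕ → (Fin N → ℂ) → (Fin N → ℂ))
    (hf : ∀ k, DifferentiableOn ℂ (f k) U) (hmap : ∀ k, MapsTo (f k) U D)
    {p : Fin N → ℂ} {W : Set (Fin N → ℂ)} (hW : IsOpen W) (hpW : p ∈ W)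
    {h : (Fin N → ℂ) → ℂ} (hh : DifferentiableOn ℂ h W) (hp : h p = 1)
    (hpeak : ∀ z ∈ W, z ∈ closure D → z ≠ p → ‖h z‖ < 1)
    {x : ℕ → Fin N → ℂ} {x₀ : Fin N → ℂ} (hx₀ : x₀ ∈ U) (hx : Tendsto x atTop (𝓝 x₀))
    (hfx : Tendsto (fun k => f k (x k)) atTop (𝓝 p)) :
    ∃ φ : ℕ → ℕ, StrictMono φ ∧ ∀ a ∈ U, ∃ ρ > 0, closedBall a ρ ⊆ U ∧
      TendstoUniformlyOn (fun k => f (φ k)) (fun _ => p) atTop (ball a ρ) := by
  classical
  obtain ⟨R, hR0, hR⟩ : ∃ R, 0 ≤ R ∧ ∀ z ∈ D, ‖z‖ ≤ R := by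
    obtain ⟨R, hR⟩ := hD.exists_norm_le
    exact ⟨max R 0, le_max_right _ _, fun z hz => (hR z hz).trans (le_max_left _ _)⟩
  obtain ⟨φ, hφ, g, hgd, hconv⟩ := montel hU f hR0 fun a r hsub => Eventually.of_forall fun k =>
    ⟨(hf k).mono (ball_subset_closedBall.trans hsub),
      fun z hz => hR _ (hmap k (hsub (ball_subset_closedBall hz)))⟩
  refine ⟨φ, hφ, fun a ha => ?_⟩
  have hgD : ∀ z ∈ U, g z ∈ closure D := by
    intro z hz
    obtain ⟨ρ, hρ, -, hu, -⟩ := hconv z hz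
    exact mem_closure_of_tendsto (hu.tendsto_at (mem_ball_self hρ))
      (Eventually.of_forall fun k => hmap _ hz)
  have hgx : g x₀ = p := by
    obtain ⟨ρ, hρ, -, hu, -⟩ := hconv x₀ hx₀
    have hc : ContinuousWithinAt g (ball x₀ ρ) x₀ :=
      (hgd.continuousOn.continuousAt (hU.mem_nhds hx₀)).continuousWithinAt
    have hxs : Tendsto (fun k => x (φ k)) atTop (𝓝[ball x₀ ρ] x₀) := by
      refine tendsto_nhdsWithin_iff.2 ⟨hx.comp hφ.tendsto_atTop, ?_⟩
      exact (hx.comp hφ.tendsto_atTop).eventually (ball_mem_nhds x₀ hρ)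
    refine tendsto_nhds_unique ?_ (hfx.comp hφ.tendsto_atTop)
    have h1 : Tendsto (fun k => g (x (φ k))) atTop (𝓝 (g x₀)) := hc.tendsto.comp hxs
    have h2 : Tendsto (fun k => dist (g (x (φ k))) (f (φ k) (x (φ k)))) atTop (𝓝 0) := by
      rw [Metric.tendsto_nhds]
      intro ε hε
      filter_upwards [Metric.tendstoUniformlyOn_iff.1 hu ε hε,
        (tendsto_nhdsWithin_iff.1 hxs).2] with k hk hkb
      rw [dist_zero_right, Real.norm_eq_abs, abs_of_nonneg dist_nonneg]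
      exact hk _ hkb
    exact (tendsto_iff_of_dist h2).1 h1
  have hnear : ∀ᶠ z in 𝓝 x₀, g z = p := by
    have hgc : ContinuousAt g x₀ := hgd.continuousOn.continuousAt (hU.mem_nhds hx₀)
    have hWx : ∀ᶠ z in 𝓝 x₀, g z ∈ W ∧ z ∈ U :=
      (hgc.eventually (by rw [hgx]; exact hW.mem_nhds hpW)).and (hU.mem_nhds hx₀)
    have hdiff : ∀ᶠ z in 𝓝 x₀, DifferentiableAt ℂ (fun z => h (g z)) z :=
      hWx.mono fun z hz => (hh.differentiableAt (hW.mem_nhds hz.1)).comp z
        (hgd.differentiableAt (hU.mem_nhds hz.2))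
    have hmax : IsLocalMax (norm ∘ fun z => h (g z)) x₀ := by
      filter_upwards [hWx] with z hz
      simp only [Function.comp_apply, hgx, hp, norm_one]
      by_cases he : g z = p
      · rw [he, hp, norm_one]
      · exact (hpeak _ hz.1 (hgD z hz.2) he).le
    filter_upwards [Complex.eventually_eq_of_isLocalMax_norm hdiff hmax, hWx] with z hz hzW
    by_contra he
    have h1 := hpeak _ hzW.1 (hgD z hzW.2) he
    rw [hz, hgx, hp, norm_one] at h1
    exact lt_irrefl _ h1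
  have hall : ∀ z ∈ U, g z = p := by
    intro z hz
    refine ((hUc.induction₂ (fun a b => (∀ᶠ y in 𝓝 a, g y = p) ↔ (∀ᶠ y in 𝓝 b, g y = p)) ?_
      (fun a b c _ _ _ h1 h2 => h1.trans h2) (fun a b _ _ h1 => h1.symm) hx₀ hz).1 hnear).self_of_nhds
    intro a ha
    obtain ⟨δ, hδ, hδU⟩ := Metric.isOpen_iff.1 hU a ha
    have key : ∀ w ∈ ball a δ, ∀ y ∈ ball a δ, (∀ᶠ u in 𝓝 w, g u = p) → g y = p := by
      intro w hw y hy hev
      set S := {t : ℂ | w + t • (y - w) ∈ ball a δ}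
      have hSo : IsOpen S := isOpen_ball.preimage (f := fun t : ℂ => w + t • (y - w)) (by fun_prop)
      have hSc : Convex ℝ S := by
        intro s hs t ht α β hα hβ hαβ
        have h := convex_ball a δ hs ht hα hβ hαβ
        show w + (α • s + β • t) • (y - w) ∈ ball a δ
        convert h using 1
        rw [add_smul, smul_assoc, smul_assoc, smul_add, smul_add, ← add_add_add_comm, ← add_smul,
          hαβ, one_smul]
      have hd : DifferentiableOn ℂ (fun t : ℂ => g (w + t • (y - w))) S :=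
        hgd.comp (f := fun t : ℂ => w + t • (y - w)) (by fun_prop) fun t ht => hδU ht
      funext i
      have hev' : ∀ᶠ t in 𝓝 (0 : ℂ), g (w + t • (y - w)) i - p i = 0 := by
        have h1 : Tendsto (fun t : ℂ => w + t • (y - w)) (𝓝 0) (𝓝 w) := by
          have h2 : Continuous fun t : ℂ => w + t • (y - w) := by fun_prop
          simpa using h2.tendsto (0 : ℂ)
        filter_upwards [h1.eventually hev] with t ht
        rw [ht, sub_self]
      have h := ((((differentiableOn_pi.1 hd) i).sub_const (p i)).analyticOnNhd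
        hSo).eqOn_zero_of_preconnected_of_eventuallyEq_zero hSc.isPreconnected
        (show (0 : ℂ) ∈ S by simpa [S] using hw) hev' (show (1 : ℂ) ∈ S by simpa [S] using hy)
      simpa [sub_eq_zero] using h
    filter_upwards [nhdsWithin_le_nhds (ball_mem_nhds a hδ)] with q hq
    refine ⟨fun h1 => ?_, fun h1 => ?_⟩
    · filter_upwards [isOpen_ball.mem_nhds hq] with u hu using key a (mem_ball_self hδ) u hu h1
    · filter_upwards [ball_mem_nhds a hδ] with u hu using key q hq u hu h1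
  obtain ⟨ρ, hρ, hρU, hu, -⟩ := hconv a ha
  exact ⟨ρ, hρ, hρU, hu.congr_right fun z hz => hall z (hρU (ball_subset_closedBall hz))⟩

/-- Local uniform convergence to `p` eventually pushes compact balls into a neighbourhood. -/
theorem eventually_in {U : Set (Fin N → ℂ)} {f : ℕ → (Fin N → ℂ) → (Fin N → ℂ)} {p : Fin N → ℂ}
    (hconv : ∀ a ∈ U, ∃ ρ > 0, closedBall a ρ ⊆ U ∧
      TendstoUniformlyOn f (fun _ => p) atTop (ball a ρ))
    {L : Set (Fin N → ℂ)} (hL : IsCompact L) (hLU : L ⊆ U) {W : Set (Fin N → ℂ)} (hW : W ∈ 𝓝 p) :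
    ∀ᶠ k in atTop, ∀ z ∈ L, f k z ∈ W := by
  choose! ρ hρ _ hu using hconv
  obtain ⟨ε, hε, hεW⟩ := Metric.mem_nhds_iff.1 hW
  obtain ⟨S, hSL, hS⟩ := hL.elim_nhds_subcover (fun a => ball a (ρ a))
    fun a ha => ball_mem_nhds a (hρ a (hLU ha))
  have hall : ∀ᶠ k in atTop, ∀ a ∈ S, ∀ z ∈ ball a (ρ a), f k z ∈ W := by
    rw [Finset.eventually_all]
    intro a ha
    filter_upwards [Metric.tendstoUniformlyOn_iff.1 (hu a (hLU (hSL a ha))) ε hε] with k hk z hz
    exact hεW (mem_ball'.2 (hk z hz))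
  filter_upwards [hall] with k hk z hz
  obtain ⟨a, ha, hza⟩ := mem_iUnion₂.1 (hS hz)
  exact hk a ha z hza

/-- The limit of maps into `V`, near a point where its derivative is invertible, lies in `V`. -/
theorem limit_mem {U V : Set (Fin N → ℂ)} (f : ℕ → (Fin N → ℂ) → (Fin N → ℂ))
    (g : (Fin N → ℂ) → (Fin N → ℂ)) {z : Fin N → ℂ} {ρ : ℝ} (hρ : 0 < ρ) (hρU : closedBall z ρ ⊆ U)
    {R : ℝ} (hR : 0 ≤ R)
    (hev : ∀ a r, closedBall a r ⊆ U → ∀ᶠ k in atTop, DifferentiableOn ℂ (f k) (ball a r) ∧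
      MapsTo (f k) (ball a r) V ∧ ∀ x ∈ ball a r, ‖f k x‖ ≤ R)
    (hu1 : TendstoUniformlyOn f g atTop (ball z ρ))
    (hu2 : TendstoUniformlyOn (fun k => fderiv ℂ (f k)) (fderiv ℂ g) atTop (ball z ρ))
    (hdet : (fderiv ℂ g z).det ≠ 0) : g z ∈ V := by
  set A := fderiv ℂ g z
  let Ae : (Fin N → ℂ) ≃L[ℂ] (Fin N → ℂ) := A.toContinuousLinearEquivOfDetNeZero hdet
  have hAe : (Ae : (Fin N → ℂ) →L[ℂ] (Fin N → ℂ)) = A := A.coe_toContinuousLinearEquivOfDetNeZero hdet
  set K : NNReal := Ae.toNonlinearRightInverse.nnnorm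
  set c : ℝ := ((K : ℝ) + 1)⁻¹ / 2
  have hc : 0 < c := by positivity
  have hz0 : z ∈ ball z ρ := mem_ball_self hρ
  have hev' := hev z ρ hρU
  obtain ⟨k₁, hk₁⟩ := eventually_atTop.1
    ((Metric.tendstoUniformlyOn_iff.1 hu2 (c / 2) (by linarith)).and hev')
  set L : ℝ := R / (ρ / 2) * (2 / (ρ / 2))
  have hL : 0 ≤ L := by positivity
  set ε := min (ρ / 8) (c / (2 * (L + 1)))
  have hε : 0 < ε := lt_min (by linarith) (by positivity)
  have hεsub : closedBall z ε ⊆ ball z ρ :=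
    closedBall_subset_ball (lt_of_le_of_lt (min_le_left _ _) (by linarith))
  have hclose : ∀ k ≥ k₁, ∀ x ∈ closedBall z ε, ‖fderiv ℂ (f k) x - A‖ ≤ c := by
    intro k hk x hx
    have e2 : 2 * (ρ / 2) = ρ := by ring
    have h1 := fderiv_lipschitz (half_pos hρ) hR (by rw [e2]; exact (hk₁ k hk).2.1)
      (by rw [e2]; exact (hk₁ k hk).2.2.2)
      (show x ∈ ball z (ρ / 2 / 2) from closedBall_subset_ball
        (lt_of_le_of_lt (min_le_left _ _) (by linarith)) hx) (mem_ball_self (by linarith))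
    have h2 := (hk₁ k hk).1 z hz0
    rw [dist_eq_norm, norm_sub_rev] at h2
    have h3 : L * ‖x - z‖ ≤ c / 2 := by
      rw [mem_closedBall, dist_eq_norm] at hx
      calc L * ‖x - z‖ ≤ L * (c / (2 * (L + 1))) :=
            mul_le_mul_of_nonneg_left (hx.trans (min_le_right _ _)) hL
        _ ≤ (L + 1) * (c / (2 * (L + 1))) := by gcongr; linarith
        _ = c / 2 := by field_simp
    change _ ≤ L * _ at h1
    change ‖_ - A‖ < _ at h2
    linarith [norm_sub_le_norm_sub_add_norm_sub (fderiv ℂ (f k) x) (fderiv ℂ (f k) z) A]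
  have hK : c < ((K : ℝ))⁻¹ ∨ (K : ℝ) = 0 := by
    rcases (NNReal.coe_nonneg K).eq_or_lt with h | h
    · exact Or.inr h.symm
    · left
      calc c < ((K : ℝ) + 1)⁻¹ := half_lt_self (by positivity)
        _ ≤ ((K : ℝ))⁻¹ := inv_anti₀ h (by linarith)
  rcases hK with hK | hK
  swap
  · -- only possible in dimension zero
    have hzero : ∀ y : Fin N → ℂ, y = 0 := fun y => by
      have := Ae.toNonlinearRightInverse.bound y
      rw [show ((Ae.toNonlinearRightInverse.nnnorm : NNReal) : ℝ) = 0 from hK, zero_mul] at this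
      have h2 : Ae.symm y = 0 := norm_le_zero_iff.1 this
      simpa using congrArg Ae h2
    have := (hk₁ k₁ le_rfl).2.2.1 hz0
    rwa [hzero (f k₁ z), ← hzero (g z)] at this
  have happ : ∀ k ≥ k₁, ApproximatesLinearOn (f k) (Ae : (Fin N → ℂ) →L[ℂ] (Fin N → ℂ))
      (closedBall z ε) ⟨c, hc.le⟩ := by
    intro k hk x hx y hy
    rw [hAe]
    exact (convex_closedBall z ε).norm_image_sub_le_of_norm_fderiv_le' (𝕜 := ℂ)
      (fun u hu => (hk₁ k hk).2.1.differentiableAt (isOpen_ball.mem_nhds (hεsub hu)))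
      (hclose k hk) hy hx
  set δ := ((K : ℝ)⁻¹ - c) * ε
  have hδ : 0 < δ := mul_pos (by linarith) hε
  obtain ⟨k, hk, hkδ⟩ := ((eventually_ge_atTop k₁).and
    (Metric.tendstoUniformlyOn_iff.1 hu1 δ hδ)).exists
  obtain ⟨y, hy, hye⟩ := (happ k hk).surjOn_closedBall_of_nonlinearRightInverse
    Ae.toNonlinearRightInverse hε.le subset_rfl (show g z ∈ closedBall (f k z) δ from
      mem_closedBall.2 (hkδ z hz0).le)
  rw [← hye]
  exact (hk₁ k hk).2.2.1 (hεsub hy)

end Vale.Agent.P274
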